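import Vale.Agent.P273.H722.Vert
import Vale.Agent.P273.H214.Gauge
import Vale.Agent.P273.H517.Far
import Vale.Agent.P273.H828.AnnDefs
import Vale.Agent.P273.H630.D0

/-!
# P273, LIM-D (U), cores: the flat form on the cores of the theta curve

`Q` = any real normed space of parameters, `d : Q → ℂ³` the half differences of the pairs.  A closed
form on the family of curves with vertical part `Re (a₀ + a₁ x) dx / y`, equal to the derivative of
the potential `C + Re (∑ c_l log (x - e_l) + ∑ a_m MM_m)` for `Im x > 1`, is equal to it on the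
whole core.
-/

noncomputable section

namespace Vale.Agent.P273.H722

open Set Filter Topology Complex
open scoped ContDiff
open Vale.Agent.P273.H214 (Bs ff Ybr IsBr FlatOn isBr_Ybr Ybr_self eventuallyEq_of_sq)
open Vale.Agent.P273.H598 (rz rz_sq rz_ne_zero differentiableAt_rz)
open Vale.Agent.P273.H517

/-! ### pull-back of closed forms -/

section Pull

variable {E G : Type*} [NormedAddCommGroup E] [NormedSpace ℝ E] [NormedAddCommGroup G]
  [NormedSpace ℝ G]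

/-- the pull-back of a closed form is closed -/
theorem pull_symm {Ω : G → (G →L[ℝ] ℝ)} {m : E → G} {q : E}
    (hΩ : DifferentiableAt ℝ Ω (m q))
    (hs : ∀ u v, fderiv ℝ Ω (m q) u v = fderiv ℝ Ω (m q) v u) (hm : ContDiffAt ℝ 2 m q) :
    DifferentiableAt ℝ (fun q => (Ω (m q)).comp (fderiv ℝ m q)) q ∧
      ∀ u v, fderiv ℝ (fun q => (Ω (m q)).comp (fderiv ℝ m q)) q u v =
        fderiv ℝ (fun q => (Ω (m q)).comp (fderiv ℝ m q)) q v u := by
  have h1 : DifferentiableAt ℝ m q := hm.differentiableAt (by norm_num)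
  have h2 : DifferentiableAt ℝ (fderiv ℝ m) q :=
    (hm.fderiv_right (m := 1) (by norm_num)).differentiableAt (by norm_num)
  have h3 : HasFDerivAt (fun q => Ω (m q)) ((fderiv ℝ Ω (m q)).comp (fderiv ℝ m q)) q :=
    hΩ.hasFDerivAt.comp q h1.hasFDerivAt
  have h4 := h3.clm_comp h2.hasFDerivAt
  refine ⟨h4.differentiableAt, fun u v => ?_⟩
  rw [h4.fderiv]
  simp only [add_apply, ContinuousLinearMap.comp_apply,
    ContinuousLinearMap.compL_apply, ContinuousLinearMap.flip_apply]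
  rw [hs, (hm.isSymmSndFDerivAt (by simp)) u v]

/-- the pull-back of a flat form along a map to the family of curves is closed -/
theorem pull_flat {O : Set Bs} {η : Bs → ℂ → ℂ → (Bs × ℂ →L[ℝ] ℝ)}
    {A : Bs → (ℂ × ℂ →L[ℝ] ℝ)} (hF : FlatOn O η A) {m : E → Bs × ℂ} {Y : E → ℂ} {q : E}
    (hm : ContDiffAt ℝ 2 m q) (hO : (m q).1 ∈ O) (hY : ContinuousAt Y q)
    (hsq : ∀ᶠ r in 𝓝 q, Y r ^ 2 = ff (m r)) (hne : ff (m q) ≠ 0) :
    DifferentiableAt ℝ (fun r => (η (m r).1 (m r).2 (Y r)).comp (fderiv ℝ m r)) q ∧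
      ∀ u v, fderiv ℝ (fun r => (η (m r).1 (m r).2 (Y r)).comp (fderiv ℝ m r)) q u v =
        fderiv ℝ (fun r => (η (m r).1 (m r).2 (Y r)).comp (fderiv ℝ m r)) q v u := by
  have hbr : IsBr (Ybr (m q) (Y q)) (m q) := isBr_Ybr hne hsq.self_of_nhds
  have hmc : ContinuousAt m q := hm.continuousAt
  have hY0 : Y q ≠ 0 := by
    intro h0
    have := hsq.self_of_nhds
    rw [h0] at this
    exact hne (by rw [← this]; simp)
  have h1 : ∀ᶠ r in 𝓝 q, Y r = Ybr (m q) (Y q) (m r) := by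
    refine eventuallyEq_of_sq hY (ContinuousAt.comp (f := m) hbr.cont hmc)
      (Ybr_self hne _).symm hY0 ?_
    filter_upwards [hsq, hmc.eventually hbr.sq] with r h2 h3
    rw [h2, h3]
  have h2 : (fun r => (η (m r).1 (m r).2 (Y r)).comp (fderiv ℝ m r)) =ᶠ[𝓝 q]
      fun r => ((fun p : Bs × ℂ => η p.1 p.2 (Ybr (m q) (Y q) p)) (m r)).comp
        (fderiv ℝ m r) := by
    filter_upwards [h1] with r hr
    rw [hr]
  have h3 := pull_symm (Ω := fun p : Bs × ℂ => η p.1 p.2 (Ybr (m q) (Y q) p))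
    ((hF.smooth _ hO _ hbr).differentiableAt (by simp)) (hF.closed _ hO _ hbr) hm
  refine ⟨h3.1.congr_of_eventuallyEq h2, fun u v => ?_⟩
  rw [h2.fderiv_eq]
  exact h3.2 u v

end Pull

/-! ### the core -/

/-- the centres -/
abbrev ct : Fin 3 → ℂ := H95.ctr

theorem ct_val : ct = ![3 / 2, 7 / 2, 11 / 2] := by
  funext k
  fin_cases k <;> norm_num [ct, H95.ctr]

theorem sep_ct : Sep ct := H630.sep_ctr

theorem ct_im (k : Fin 3) : (ct k).im = 0 := by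
  rw [ct_val]
  fin_cases k <;> simp

theorem ct_re (k : Fin 3) : 3 / 2 ≤ (ct k).re ∧ (ct k).re ≤ 11 / 2 := by
  rw [ct_val]
  fin_cases k <;> norm_num

theorem ff_th (d : Fin 3 → ℂ) (x : ℂ) :
    ff (H828.th d, x) = ∏ k, ((x - ct k) ^ 2 - d k ^ 2) := by
  have h : ff (H828.th d, x) = (x - (3 / 2 - d 0)) * (x - (3 / 2 + d 0)) * (x - (7 / 2 - d 1)) *
      (x - (7 / 2 + d 1)) * (x - (11 / 2 - d 2)) * (x - (11 / 2 + d 2)) := by
    unfold ff
    rw [Fin.prod_univ_six]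
    rfl
  have h1 : ∏ k, ((x - ct k) ^ 2 - d k ^ 2) =
      ((x - 3 / 2) ^ 2 - d 0 ^ 2) * ((x - 7 / 2) ^ 2 - d 1 ^ 2) *
        ((x - 11 / 2) ^ 2 - d 2 ^ 2) := by
    rw [Fin.prod_univ_three, ct_val]
    rfl
  rw [h, h1]
  ring

/-- the root `y` on the core -/
def yc (ε : Fin 3 → ℂ) (x : ℂ) : ℂ := ∏ k, rz (ε k) (x - ct k)

theorem yc_sq {d : Fin 3 → ℂ} {x : ℂ} (hx : ∀ k, x ≠ ct k) :
    yc (fun k => d k ^ 2) x ^ 2 = ff (H828.th d, x) := by
  rw [ff_th, yc, ← Finset.prod_pow]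
  exact Finset.prod_congr rfl fun k _ => rz_sq (sub_ne_zero.2 (hx k))

theorem yc_ne {ε : Fin 3 → ℂ} (hs : Sm ε) {x : ℂ} (hx : ∀ k, 1 / 128 < ‖x - ct k‖) :
    yc ε x ≠ 0 :=
  Finset.prod_ne_zero_iff.2 fun k _ => rz_ne_zero (lt_sq_of (hs k) (hx k).le)

theorem ph0_eq (ε : Fin 3 → ℂ) (x : ℂ) : ph0 ct ε x = (yc ε x)⁻¹ := by
  unfold ph0 ps yc
  rw [Fin.prod_univ_three, mul_inv, mul_inv]

theorem ne_ct {x : ℂ} (hx : ∀ k, 1 / 128 < ‖x - ct k‖) (k : Fin 3) : x ≠ ct k := by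
  intro h
  have := hx k
  rw [h] at this
  norm_num at this

section Core

variable {Q : Type*} [NormedAddCommGroup Q] [NormedSpace ℝ Q]

/-- functions of the second coordinate -/
theorem hasFDerivAt_snd_of {g : ℂ → ℂ} {g' : ℂ} {p : Q × ℂ} (h : HasDerivAt g g' p.2) :
    HasFDerivAt (fun p : Q × ℂ => g p.2) (g' • (ContinuousLinearMap.snd ℝ Q ℂ)) p := by
  have h1 := h.complexToReal_fderiv.comp p (hasFDerivAt_snd (𝕜 := ℝ) (p := p))
  refine h1.congr_fderiv ?_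
  ext v <;> simp

/-- the angular form -/
def ang (e : ℂ) (p : Q × ℂ) : Q × ℂ →L[ℝ] ℝ :=
  imCLM.comp ((p.2 - e)⁻¹ • (ContinuousLinearMap.snd ℝ Q ℂ))

theorem ang_apply (e : ℂ) (p v : Q × ℂ) : ang e p v = ((p.2 - e)⁻¹ * v.2).im := rfl

theorem ang_facts (e : ℂ) {p : Q × ℂ} (h : p.2 ≠ e) :
    DifferentiableAt ℝ (ang (Q := Q) e) p ∧
      ∀ u v, fderiv ℝ (ang (Q := Q) e) p u v = fderiv ℝ (ang (Q := Q) e) p v u := by
  have h0 : HasDerivAt (fun x : ℂ => (x - e)⁻¹) (-1 / (p.2 - e) ^ 2) p.2 :=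
    ((hasDerivAt_id p.2).sub_const e).inv (sub_ne_zero.2 h)
  have h1 := hasFDerivAt_snd_of (Q := Q) h0
  have h2 := h1.smul_const (ContinuousLinearMap.snd ℝ Q ℂ)
  have h3 := ((ContinuousLinearMap.compL ℝ (Q × ℂ) ℂ ℝ imCLM).hasFDerivAt).comp p h2
  have h4 : HasFDerivAt (ang (Q := Q) e) _ p := h3
  refine ⟨h4.differentiableAt, fun u v => ?_⟩
  rw [h4.fderiv]
  simp only [ContinuousLinearMap.comp_apply, ContinuousLinearMap.smulRight_apply,
    ContinuousLinearMap.compL_apply, smul_apply,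
    ContinuousLinearMap.coe_snd', smul_eq_mul, imCLM_apply]
  congr 1
  ring

/-- real part of a holomorphic function -/
theorem hasFDerivAt_re {g : ℂ → ℂ} {g' x : ℂ} (h : HasDerivAt g g' x) :
    HasFDerivAt (fun x => (g x).re) (reCLM.comp (g' • (1 : ℂ →L[ℝ] ℂ))) x :=
  reCLM.hasFDerivAt.comp x h.complexToReal_fderiv

/-- derivative of `log ‖x - e‖` -/
theorem hasFDerivAt_log_norm {e x : ℂ} (h : x ≠ e) :
    HasFDerivAt (fun x => Real.log ‖x - e‖) (reCLM.comp ((x - e)⁻¹ • (1 : ℂ →L[ℝ] ℂ))) x := by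
  have hx : x - e ≠ 0 := sub_ne_zero.2 h
  have h0 : (x - e) * (starRingEnd ℂ) (x - e) ∈ slitPlane := by
    rw [mul_conj]
    exact ofReal_mem_slitPlane.2 (normSq_pos.2 hx)
  have h1 : HasDerivAt (fun y : ℂ => log ((y - e) * (starRingEnd ℂ) (x - e))) ((x - e)⁻¹) x := by
    have h2 := (((hasDerivAt_id x).sub_const e).mul_const ((starRingEnd ℂ) (x - e))).clog h0
    refine h2.congr_deriv ?_
    have h3 : (starRingEnd ℂ) (x - e) ≠ 0 := (map_ne_zero _).2 hx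
    simp only [id]
    field_simp
  have h2 := (hasFDerivAt_re h1).sub_const (Real.log ‖x - e‖)
  refine h2.congr_of_eventuallyEq ?_
  have h3 : ∀ᶠ y in 𝓝 x, y ≠ e := isOpen_ne.mem_nhds h
  filter_upwards [h3] with y hy
  have h4 : (0 : ℝ) < ‖y - e‖ := norm_pos_iff.2 (sub_ne_zero.2 hy)
  have h5 : (0 : ℝ) < ‖x - e‖ := norm_pos_iff.2 hx
  rw [log_re, norm_mul, RCLike.norm_conj, Real.log_mul h4.ne' h5.ne']
  ring

theorem contDiffAt_log_norm {e x : ℂ} (h : x ≠ e) :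
    ContDiffAt ℝ 2 (fun x => Real.log ‖x - e‖) x := by
  have hx : x - e ≠ 0 := sub_ne_zero.2 h
  have h1 : ContDiffAt ℝ 2 (fun x : ℂ => x - e) x := contDiffAt_id.sub contDiffAt_const
  exact (h1.norm ℝ hx).log (norm_ne_zero_iff.2 hx)

/-- squares of the half differences -/
def sqd (d : Q → Fin 3 → ℂ) (p : Q) : Fin 3 → ℂ := fun k => d p k ^ 2

/-- the map to the family of curves -/
def mm (d : Q → Fin 3 → ℂ) (p : Q × ℂ) : Bs × ℂ := (H828.th (d p.1), p.2)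

/-- the pulled back form -/
def es (η : Bs → ℂ → ℂ → (Bs × ℂ →L[ℝ] ℝ)) (d : Q → Fin 3 → ℂ) (p : Q × ℂ) : Q × ℂ →L[ℝ] ℝ :=
  (η (mm d p).1 (mm d p).2 (yc (sqd d p.1) p.2)).comp (fderiv ℝ (mm d) p)

/-- the one-valued part of the potential -/
def FF (d : Q → Fin 3 → ℂ) (a : Q → Fin 2 → ℂ) (cR : Q → Fin 3 → ℝ) (C : Q → ℝ) (p : Q × ℂ) : ℝ :=
  C p.1 + (a p.1 0 * MM ct (sqd d p.1) 0 p.2 + a p.1 1 * MM ct (sqd d p.1) 1 p.2).re +
    ∑ l, cR p.1 l * Real.log ‖p.2 - ct l‖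

/-- the form corrected by the angular forms -/
def om (η : Bs → ℂ → ℂ → (Bs × ℂ →L[ℝ] ℝ)) (d : Q → Fin 3 → ℂ) (β : Fin 3 → ℝ) (p : Q × ℂ) :
    Q × ℂ →L[ℝ] ℝ := es η d p + ∑ l, (β l / Real.pi) • ang (ct l) p

/-- the core -/
def Om (P0 : Set Q) : Set (Q × ℂ) := {p | p.1 ∈ P0 ∧ ∀ k, 1 / 128 < ‖p.2 - ct k‖}

omit [NormedSpace ℝ Q] in
theorem isOpen_Om {P0 : Set Q} (h : IsOpen P0) : IsOpen (Om P0) := by
  have h1 : Om P0 = (Prod.fst ⁻¹' P0) ∩ ⋂ k, {p : Q × ℂ | 1 / 128 < ‖p.2 - ct k‖} := by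
    ext p
    simp [Om]
  rw [h1]
  exact (h.preimage continuous_fst).inter
    (isOpen_iInter_of_finite fun k => isOpen_lt continuous_const (by fun_prop))

/-- the data on the cores -/
structure CoreIn (O : Set Bs) (η : Bs → ℂ → ℂ → (Bs × ℂ →L[ℝ] ℝ)) (A : Bs → (ℂ × ℂ →L[ℝ] ℝ))
    (P0 : Set Q) (d : Q → Fin 3 → ℂ) (a : Q → Fin 2 → ℂ) (cR : Q → Fin 3 → ℝ) (β : Fin 3 → ℝ)
    (C : Q → ℝ) : Prop where
  flat : FlatOn O η A
  op : IsOpen P0
  sd : ∀ p ∈ P0, ContDiffAt ℝ 2 d p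
  mem : ∀ p ∈ P0, H828.th (d p) ∈ O
  sm : ∀ p ∈ P0, Sm (sqd d p)
  sa : ∀ p ∈ P0, ContDiffAt ℝ 2 a p
  sc : ∀ p ∈ P0, ContDiffAt ℝ 2 cR p
  sC : ∀ p ∈ P0, ContDiffAt ℝ 2 C p
  hA : ∀ p ∈ P0, ∀ u v, A (H828.th (d p)) (u, v) = (a p 0 * u + a p 1 * v).re
  res : ∀ p ∈ P0, ∀ l, a p 0 * cm ct (sqd d p) 0 l + a p 1 * cm ct (sqd d p) 1 l =
    (cR p l : ℂ) + ((β l / Real.pi : ℝ) : ℂ) * I

variable {O : Set Bs} {η : Bs → ℂ → ℂ → (Bs × ℂ →L[ℝ] ℝ)} {A : Bs → (ℂ × ℂ →L[ℝ] ℝ)}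
  {P0 : Set Q} {d : Q → Fin 3 → ℂ} {a : Q → Fin 2 → ℂ} {cR : Q → Fin 3 → ℝ} {β : Fin 3 → ℝ}
  {C : Q → ℝ}

theorem contDiff_th : ContDiff ℝ 2 H828.th := by
  unfold H828.th
  rw [contDiff_pi]
  intro i
  fin_cases i <;> simp <;> fun_prop

theorem contDiffAt_sqd {p : Q} (h : ContDiffAt ℝ 2 d p) : ContDiffAt ℝ 2 (sqd d) p := by
  rw [contDiffAt_pi] at h ⊢
  intro k
  exact (h k).pow 2

theorem contDiffAt_mm {p : Q × ℂ} (h : ContDiffAt ℝ 2 d p.1) : ContDiffAt ℝ 2 (mm d) p := by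
  have h1 : ContDiffAt ℝ 2 (fun p : Q × ℂ => d p.1) p := h.comp p contDiffAt_fst
  exact (contDiff_th.contDiffAt.comp p h1).prodMk contDiffAt_snd

theorem contDiffAt_MM2 (m : ℕ) {p : (Fin 3 → ℂ) × ℂ} (h : p ∈ CoreS ct) :
    ContDiffAt ℝ 2 (fun p : (Fin 3 → ℂ) × ℂ => MM ct p.1 m p.2) p := by
  have h1 := P268.contDiffOn_of_differentiableOn (isOpen_CoreS ct) (differentiableOn_MM sep_ct m) 2
  exact (h1.contDiffAt ((isOpen_CoreS ct).mem_nhds h)).restrict_scalars ℝ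

theorem mem_CoreS (h : CoreIn O η A P0 d a cR β C) {p : Q × ℂ} (hp : p ∈ Om P0) :
    (sqd d p.1, p.2) ∈ CoreS ct := ⟨h.sm _ hp.1, hp.2⟩

theorem contDiffAt_MM3 (h : CoreIn O η A P0 d a cR β C) (m : ℕ) {p : Q × ℂ} (hp : p ∈ Om P0) :
    ContDiffAt ℝ 2 (fun p : Q × ℂ => MM ct (sqd d p.1) m p.2) p := by
  have h1 : ContDiffAt ℝ 2 (fun p : Q × ℂ => sqd d p.1) p :=
    (contDiffAt_sqd (h.sd _ hp.1)).comp p contDiffAt_fst
  exact ContDiffAt.comp (g := fun p : (Fin 3 → ℂ) × ℂ => MM ct p.1 m p.2)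
    (f := fun p : Q × ℂ => (sqd d p.1, p.2)) p (contDiffAt_MM2 m (mem_CoreS h hp))
    (h1.prodMk contDiffAt_snd)

theorem contDiffAt_FF (h : CoreIn O η A P0 d a cR β C) {p : Q × ℂ} (hp : p ∈ Om P0) :
    ContDiffAt ℝ 2 (FF d a cR C) p := by
  have ha : ∀ m : Fin 2, ContDiffAt ℝ 2 (fun p : Q × ℂ => a p.1 m) p := fun m =>
    ((contDiffAt_pi.1 (h.sa _ hp.1)) m).comp p contDiffAt_fst
  have hc : ∀ l : Fin 3, ContDiffAt ℝ 2 (fun p : Q × ℂ => cR p.1 l) p := fun l =>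
    ((contDiffAt_pi.1 (h.sc _ hp.1)) l).comp p contDiffAt_fst
  have hC : ContDiffAt ℝ 2 (fun p : Q × ℂ => C p.1) p := (h.sC _ hp.1).comp p contDiffAt_fst
  have hl : ∀ l : Fin 3, ContDiffAt ℝ 2 (fun p : Q × ℂ => Real.log ‖p.2 - ct l‖) p := fun l =>
    (contDiffAt_log_norm (ne_ct hp.2 l)).comp p contDiffAt_snd
  unfold FF
  refine (hC.add ?_).add (ContDiffAt.sum fun l _ => (hc l).mul (hl l))
  exact reCLM.contDiff.contDiffAt.comp p
    (((ha 0).mul (contDiffAt_MM3 h 0 hp)).add ((ha 1).mul (contDiffAt_MM3 h 1 hp)))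

theorem continuousAt_rz2 {q : ℂ × ℂ} (h : ‖q.1‖ < ‖q.2‖ ^ 2) :
    ContinuousAt (fun q : ℂ × ℂ => rz q.1 q.2) q := (differentiableAt_rz h).continuousAt

theorem continuousAt_yc {ε : Fin 3 → ℂ} (hs : Sm ε) {x : ℂ} (hx : ∀ k, 1 / 128 < ‖x - ct k‖) :
    ContinuousAt (fun p : (Fin 3 → ℂ) × ℂ => yc p.1 p.2) (ε, x) := by
  unfold yc
  refine tendsto_finsetProd _ fun k _ => ?_
  have h1 : ContinuousAt (fun p : (Fin 3 → ℂ) × ℂ => (p.1 k, p.2 - ct k)) (ε, x) := by fun_prop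
  exact ContinuousAt.comp (g := fun q : ℂ × ℂ => rz q.1 q.2)
    (f := fun p : (Fin 3 → ℂ) × ℂ => (p.1 k, p.2 - ct k)) (x := (ε, x))
    (continuousAt_rz2 (lt_sq_of (hs k) (hx k).le)) h1

/-- the pulled back form is closed -/
theorem es_facts (h : CoreIn O η A P0 d a cR β C) {p : Q × ℂ} (hp : p ∈ Om P0) :
    DifferentiableAt ℝ (es η d) p ∧
      ∀ u v, fderiv ℝ (es η d) p u v = fderiv ℝ (es η d) p v u := by
  have hsd : ContDiffAt ℝ 2 (fun p : Q × ℂ => sqd d p.1) p :=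
    (contDiffAt_sqd (h.sd _ hp.1)).comp p contDiffAt_fst
  have hY : ContinuousAt (fun r : Q × ℂ => yc (sqd d r.1) r.2) p :=
    ContinuousAt.comp (g := fun p : (Fin 3 → ℂ) × ℂ => yc p.1 p.2)
      (f := fun r : Q × ℂ => (sqd d r.1, r.2)) (continuousAt_yc (h.sm _ hp.1) hp.2)
      (hsd.continuousAt.prodMk continuousAt_snd)
  refine pull_flat h.flat (contDiffAt_mm (h.sd _ hp.1)) (h.mem _ hp.1) hY ?_ ?_
  · filter_upwards [(isOpen_Om h.op).mem_nhds hp] with r hr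
    exact yc_sq (ne_ct hr.2)
  · have h1 : yc (sqd d p.1) p.2 ^ 2 = ff (mm d p) := yc_sq (ne_ct hp.2)
    rw [← h1]
    exact pow_ne_zero 2 (yc_ne (h.sm _ hp.1) hp.2)

/-- the corrected form is closed -/
theorem om_facts (h : CoreIn O η A P0 d a cR β C) {p : Q × ℂ} (hp : p ∈ Om P0) :
    DifferentiableAt ℝ (om η d β) p ∧
      ∀ u v, fderiv ℝ (om η d β) p u v = fderiv ℝ (om η d β) p v u := by
  have h1 := es_facts h hp
  have h2 : ∀ l ∈ Finset.univ, HasFDerivAt (fun p : Q × ℂ => (β l / Real.pi) • ang (ct l) p)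
      ((β l / Real.pi) • fderiv ℝ (ang (Q := Q) (ct l)) p) p := fun l _ =>
    (ang_facts (ct l) (ne_ct hp.2 l)).1.hasFDerivAt.fun_const_smul _
  have h3 := h1.1.hasFDerivAt.add (HasFDerivAt.fun_sum h2)
  have h4 : HasFDerivAt (om η d β) (fderiv ℝ (es η d) p +
      ∑ l, (β l / Real.pi) • fderiv ℝ (ang (Q := Q) (ct l)) p) p := h3
  refine ⟨h4.differentiableAt, fun u v => ?_⟩
  rw [h4.fderiv]
  simp only [add_apply, _root_.sum_apply, smul_apply]
  rw [h1.2 u v]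
  congr 1
  refine Finset.sum_congr rfl fun l _ => ?_
  rw [(ang_facts (ct l) (ne_ct hp.2 l)).2 u v]

/-- vertical vectors -/
theorem fderiv_mm_vert (h : CoreIn O η A P0 d a cR β C) {p : Q × ℂ} (hp : p ∈ Om P0) (c : ℂ) :
    fderiv ℝ (mm d) p (0, c) = (0, c) := by
  have h1 : DifferentiableAt ℝ (fun q : Q => H828.th (d q)) p.1 :=
    (contDiff_th.contDiffAt.comp p.1 (h.sd _ hp.1)).differentiableAt (by norm_num)
  have h2 : HasFDerivAt (mm d) (((fderiv ℝ (fun q : Q => H828.th (d q)) p.1).comp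
      (ContinuousLinearMap.fst ℝ Q ℂ)).prod (ContinuousLinearMap.snd ℝ Q ℂ)) p :=
    (h1.hasFDerivAt.comp p hasFDerivAt_fst).prodMk hasFDerivAt_snd
  rw [h2.fderiv]
  simp

/-- the derivative of the potential along the fibre -/
theorem fderiv_FF_vert (h : CoreIn O η A P0 d a cR β C) {p : Q × ℂ} (hp : p ∈ Om P0) (c : ℂ) :
    fderiv ℝ (FF d a cR C) p (0, c) =
      ((a p.1 0 * (ph ct (sqd d p.1) 0 p.2 - ∑ k, (p.2 - ct k)⁻¹ * cm ct (sqd d p.1) 0 k) +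
        a p.1 1 * (ph ct (sqd d p.1) 1 p.2 - ∑ k, (p.2 - ct k)⁻¹ * cm ct (sqd d p.1) 1 k)) *
          c).re + ∑ l, cR p.1 l * ((p.2 - ct l)⁻¹ * c).re := by
  have h1 : HasFDerivAt (FF d a cR C) (fderiv ℝ (FF d a cR C) p) (p.1, p.2) :=
    ((contDiffAt_FF h hp).differentiableAt (by norm_num)).hasFDerivAt
  have h2 : HasFDerivAt (fun x : ℂ => FF d a cR C (p.1, x))
      ((fderiv ℝ (FF d a cR C) p).comp (ContinuousLinearMap.inr ℝ Q ℂ)) p.2 :=
    HasFDerivAt.comp (g := FF d a cR C) (f := fun x : ℂ => (p.1, x)) p.2 h1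
      (hasFDerivAt_prodMk_right p.1 p.2)
  have hm : ∀ m : ℕ, m ≤ 1 → HasDerivAt (fun x => MM ct (sqd d p.1) m x)
      (ph ct (sqd d p.1) m p.2 - ∑ k, (p.2 - ct k)⁻¹ * cm ct (sqd d p.1) m k) p.2 :=
    fun m hm => hasDerivAt_MM sep_ct (h.sm _ hp.1) hm hp.2
  have h3 := hasFDerivAt_re (((hm 0 (by norm_num)).const_mul (a p.1 0)).add
    ((hm 1 le_rfl).const_mul (a p.1 1)))
  have h4 : HasFDerivAt (fun x : ℂ => ∑ l, cR p.1 l * Real.log ‖x - ct l‖)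
      (∑ l, cR p.1 l • (reCLM.comp ((p.2 - ct l)⁻¹ • (1 : ℂ →L[ℝ] ℂ)))) p.2 :=
    HasFDerivAt.fun_sum fun l _ => (hasFDerivAt_log_norm (ne_ct hp.2 l)).const_mul (cR p.1 l)
  have h5 := (h3.const_add (C p.1)).add h4
  have h6 := h2.unique h5
  have h7 := congrArg (fun L : ℂ →L[ℝ] ℝ => L c) h6
  simp only [ContinuousLinearMap.comp_apply, ContinuousLinearMap.inr_apply, add_apply,
    _root_.sum_apply, smul_apply, reCLM_apply, smul_eq_mul,
    one_apply_eq_self] at h7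
  exact h7

/-- the vertical parts agree -/
theorem om_vert (h : CoreIn O η A P0 d a cR β C) {p : Q × ℂ} (hp : p ∈ Om P0) (c : ℂ) :
    om η d β p (0, c) = fderiv ℝ (FF d a cR C) p (0, c) := by
  rw [fderiv_FF_vert h hp]
  have hy : yc (sqd d p.1) p.2 ≠ 0 := yc_ne (h.sm _ hp.1) hp.2
  have h1 : es η d p (0, c) = ((a p.1 0 * ph ct (sqd d p.1) 0 p.2 +
      a p.1 1 * ph ct (sqd d p.1) 1 p.2) * c).re := by
    unfold es
    rw [ContinuousLinearMap.comp_apply, fderiv_mm_vert h hp]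
    have hv : η (mm d p).1 (mm d p).2 (yc (sqd d p.1) p.2) (0, c) =
        A (H828.th (d p.1)) (c / yc (sqd d p.1) p.2, p.2 * c / yc (sqd d p.1) p.2) :=
      h.flat.vert _ (h.mem _ hp.1) _ _ (yc_sq (ne_ct hp.2)) hy c
    rw [hv, h.hA _ hp.1]
    congr 1
    unfold ph
    rw [ph0_eq]
    field_simp
  unfold om
  rw [add_apply, _root_.sum_apply, h1]
  simp only [smul_apply, ang_apply, smul_eq_mul]
  have h2 : ∀ l, (β l / Real.pi) * ((p.2 - ct l)⁻¹ * c).im =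
      - ((((β l / Real.pi : ℝ) : ℂ) * I) * ((p.2 - ct l)⁻¹ * c)).re := by
    intro l
    simp only [mul_re, mul_im, ofReal_re, ofReal_im, I_re, I_im]
    ring
  have h3 : ∀ l, cR p.1 l * ((p.2 - ct l)⁻¹ * c).re =
      (((cR p.1 l : ℝ) : ℂ) * ((p.2 - ct l)⁻¹ * c)).re := by
    intro l
    rw [re_ofReal_mul]
  simp only [h2, h3]
  rw [← re_sum, Finset.sum_neg_distrib, ← re_sum, ← sub_eq_add_neg, ← sub_re, ← add_re]
  congr 1
  have h4 : ∀ l, (((cR p.1 l : ℝ) : ℂ) * ((p.2 - ct l)⁻¹ * c)) =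
      (a p.1 0 * cm ct (sqd d p.1) 0 l + a p.1 1 * cm ct (sqd d p.1) 1 l) *
        ((p.2 - ct l)⁻¹ * c) - (((β l / Real.pi : ℝ) : ℂ) * I) * ((p.2 - ct l)⁻¹ * c) := by
    intro l
    rw [h.res _ hp.1]
    ring
  rw [Finset.sum_congr rfl fun l _ => h4 l, Finset.sum_sub_distrib]
  simp only [Fin.sum_univ_three]
  ring

/-- one step along a segment of the fibre -/
theorem core_step (h : CoreIn O η A P0 d a cR β C) {p : Q} {x w : ℂ}
    (hx : ∀ t ∈ Icc (0 : ℝ) 1, (p, x + t * w) ∈ Om P0)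
    (h1 : om η d β (p, x + w) = fderiv ℝ (FF d a cR C) (p, x + w)) :
    om η d β (p, x) = fderiv ℝ (FF d a cR C) (p, x) := by
  refine vert_of_eq (isOpen_Om h.op) (fun p hp => (om_facts h hp).1)
    (fun p hp => (om_facts h hp).2) (fun p hp => contDiffAt_FF h hp)
    (fun p hp c => om_vert h hp c) (z₀ := x) (z₁ := x + w) ?_ h1
  intro t ht
  have h2 : x + t • (x + w - x) = x + t * w := by
    rw [real_smul]
    ring
  rw [h2]
  exact hx t ht

theorem norm_of_re {z : ℂ} (h : 1 ≤ z.re) : 1 / 128 < ‖z‖ := by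
  have := abs_re_le_norm z
  rw [abs_of_nonneg (by linarith)] at this
  linarith

theorem norm_of_im {z : ℂ} (h : 1 ≤ |z.im|) : 1 / 128 < ‖z‖ := by
  have := abs_im_le_norm z
  linarith

/-- **the flat form on the core** -/
theorem core_eq (h : CoreIn O η A P0 d a cR β C)
    (hZ : ∀ p ∈ P0, ∀ x : ℂ, 1 < x.im → om η d β (p, x) = fderiv ℝ (FF d a cR C) (p, x)) :
    ∀ p ∈ Om P0, om η d β p = fderiv ℝ (FF d a cR C) p := by
  -- far on the right
  have hB : ∀ p ∈ P0, ∀ x : ℂ, 8 ≤ x.re → om η d β (p, x) = fderiv ℝ (FF d a cR C) (p, x) := by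
    intro p hp x hx
    refine core_step h (w := ((|x.im| + 2 : ℝ) : ℂ) * I) ?_ (hZ p hp _ ?_)
    · intro t _
      refine ⟨hp, fun k => norm_of_re ?_⟩
      have h1 : (x + t * (((|x.im| + 2 : ℝ) : ℂ) * I) - ct k).re = x.re - (ct k).re := by
        simp
      rw [h1]
      have := (ct_re k).2
      linarith
    · simp only [add_im, mul_im, ofReal_re, ofReal_im, I_re, I_im, mul_one, add_zero, mul_zero]
      have := neg_abs_le x.im
      linarith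
  -- far below
  have hC : ∀ p ∈ P0, ∀ x : ℂ, x.im ≤ -1 → om η d β (p, x) = fderiv ℝ (FF d a cR C) (p, x) := by
    intro p hp x hx
    refine core_step h (w := ((|x.re| + 8 : ℝ) : ℂ)) ?_ (hB p hp _ ?_)
    · intro t _
      refine ⟨hp, fun k => norm_of_im ?_⟩
      have h1 : (x + t * ((|x.re| + 8 : ℝ) : ℂ) - ct k).im = x.im := by
        simp [ct_im]
      rw [h1, abs_of_neg (by linarith)]
      linarith
    · simp only [add_re, ofReal_re]
      have := neg_abs_le x.re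
      linarith
  rintro ⟨p, x⟩ ⟨hp, hx⟩
  simp only at hp hx
  have key : ∀ (t s : ℝ) (k : Fin 3), 0 ≤ t → 0 ≤ x.im * s →
      1 / 128 < ‖x + t * ((s : ℂ) * I) - ct k‖ := by
    intro t s k ht hs
    refine (hx k).trans_le ?_
    rw [← sq_le_sq₀ (norm_nonneg _) (norm_nonneg _), Complex.sq_norm, Complex.sq_norm,
      normSq_apply, normSq_apply]
    have h1 : (x + t * ((s : ℂ) * I) - ct k).re = (x - ct k).re := by simp
    have h2 : (x + t * ((s : ℂ) * I) - ct k).im = (x - ct k).im + t * s := by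
      simp
      ring
    have h3 : (x - ct k).im = x.im := by simp [ct_im]
    rw [h1, h2, h3]
    nlinarith [mul_nonneg ht hs, mul_nonneg ht ht, mul_self_nonneg (t * s)]
  rcases le_or_gt 0 x.im with hi | hi
  · refine core_step h (w := ((2 : ℝ) : ℂ) * I) (fun t ht => ⟨hp, fun k => ?_⟩) (hZ p hp _ ?_)
    · exact key t 2 k ht.1 (by linarith)
    · simp only [add_im, mul_im, ofReal_re, ofReal_im, I_re, I_im, mul_one, add_zero, mul_zero]
      linarith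
  · refine core_step h (w := ((-2 : ℝ) : ℂ) * I) (fun t ht => ⟨hp, fun k => ?_⟩) (hC p hp _ ?_)
    · exact key t (-2) k ht.1 (by linarith)
    · simp only [add_im, mul_im, ofReal_re, ofReal_im, I_re, I_im, mul_one, add_zero, mul_zero]
      linarith

end Core

end Vale.Agent.P273.H722
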