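import Vale.Agent.P273.H722.UTheta
import Vale.Agent.P273.H517.Bd
import Vale.Agent.P273.H545.CoreTheta

/-!
# P273, LIM-D (U), cores: the flat form in the form `UKD` of helper545

`b` = base map, `x` (or `w = 1 / x`) = coordinate on the core, any real normed space `E`.
-/

noncomputable section

namespace Vale.Agent.P273.H722

open Set Filter Topology Complex
open scoped ContDiff
open Vale.Agent.P273.H214 (Bs ff FlatOn)
open Vale.Agent.P273.H517
open Vale.Agent.P273.H580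
open Vale.Agent.P273.H630 (D0 I0 af0 eps0 ysh cc eps0_eq sep_ctr ell0)
open Vale.Agent.P273.H562 (rootsL bt xe)
open Vale.Agent.P273.H95 (IsCl)
open Vale.Agent.P273.H545 (UK UKD hasFDerivAt_UK)

variable {ξ : Fin 6 → ℝ} {E : Type*} [NormedAddCommGroup E] [NormedSpace ℝ E]
  {b : E → Pa (Fin 3)} {x : E → ℂ} {q : E} {B : E →L[ℝ] Pa (Fin 3)} {x' : E →L[ℝ] ℂ}
  {K : E3 × ℂ → (E3 →L[ℂ] ℂ)} {K' : E3 × ℂ →L[ℝ] (E3 →L[ℂ] ℂ)}

theorem hasFDerivAt_shP (hb : HasFDerivAt b B q) : HasFDerivAt (fun r => shP (b r)) B q := by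
  have h : (fun r => shP (b r)) = fun r => b r + ((fun _ => 2 * Real.log 16), 0) := by
    funext r
    refine Prod.ext ?_ ?_
    · rfl
    · simp [shP]
  rw [h]
  exact hb.add_const _

omit [NormedAddCommGroup E] [NormedSpace ℝ E] in
/-- the potential with the primitive `K` -/
theorem UK_eq_UU {Lf : Fin 3 → ℂ → ℂ} (hK : ∀ ε x c, K (ε, x) c =
    af0 ε c 0 * MM ct ε 0 x + af0 ε c 1 * MM ct ε 1 x + ∑ l, c l * Lf l x) (r : E) :
    UK D0 K (xe ξ) (bt ξ) (fun r => shP (b r)) x r =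
      UU dT (aT ξ) (xT ξ) (bt ξ) (CT ξ) Lf (b r, x r) := by
  have h1 : UK D0 K (xe ξ) (bt ξ) (fun r => shP (b r)) x r =
      CT ξ (b r) + (K (eps0 (b r).1 (b r).2, x r) (cc ξ (b r).1 (b r).2)).re := by
    rw [← ep_shP]
    rfl
  rw [h1, hK, UU, sqd_dT]
  simp only [cc_apply']
  rfl

omit [NormedAddCommGroup E] [NormedSpace ℝ E] in
theorem UK_eq_UI (hK : ∀ ε x c, K (ε, x) c =
    af0 ε c 0 * MI ct ε 0 x + af0 ε c 1 * MI ct ε 1 x + ∑ l, c l * log (1 - ct l * x)) (r : E) :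
    UK D0 K (xe ξ) (bt ξ) (fun r => shP (b r)) x r =
      UI dT (aT ξ) (xT ξ) (bt ξ) (CT ξ) (b r, x r) := by
  have h1 : UK D0 K (xe ξ) (bt ξ) (fun r => shP (b r)) x r =
      CT ξ (b r) + (K (eps0 (b r).1 (b r).2, x r) (cc ξ (b r).1 (b r).2)).re := by
    rw [← ep_shP]
    rfl
  rw [h1, hK, UI, sqd_dT]
  simp only [cc_apply']
  rfl

/-- the flat form at the theta configuration, point `x`, root `s yc` -/
def flT (ξ : Fin 6 → ℝ) (b : E → Pa (Fin 3)) (x : E → ℂ) (s : ℂ) (q : E) : E →L[ℝ] ℝ :=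
  (etaX theStms ξ (rootsL (b q).1 (b q).2) (x q) (s * yc (eps0 (b q).1 (b q).2) (x q))).comp
    (fderiv ℝ (fun r => (rootsL (b r).1 (b r).2, x r)) q)

theorem flT_neg (s : ℂ) (q : E) : flT ξ b x (-s) q = -flT ξ b x s q := by
  unfold flT
  have h := (H580.etaX_flatOn theStms (ξ := ξ))
  rw [neg_mul]
  have h2 : ∀ b x y, etaX theStms ξ b x (-y) = -etaX theStms ξ b x y := fun b x y =>
    eta_neg b x y
  rw [h2]
  rfl

/-- **near chart** -/
theorem flat_near (hξ : IsCl ξ) (hb : HasFDerivAt b B q) (hx : HasFDerivAt x x' q)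
    (hp : b q ∈ PT NT) (hz : ∀ k, 1 / 128 < ‖x q - ct k‖) {Lf : Fin 3 → ℂ → ℂ}
    (hL : ∀ l, IsLg (ct l) (Lf l) (x q))
    (hK : ∀ ε x c, K (ε, x) c =
      af0 ε c 0 * MM ct ε 0 x + af0 ε c 1 * MM ct ε 1 x + ∑ l, c l * Lf l x)
    (hK' : HasFDerivAt K K' (ep (shP (b q)), x q)) :
    flT ξ b x 1 q =
      UKD D0 (K (ep (shP (b q)), x q)) K' (xe ξ) (bt ξ) (shP (b q)) B x' := by
  have h1 := core_hasFDerivAt (coreIn_theta hξ) (hE_theta hξ) hb.differentiableAt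
    hx.differentiableAt ⟨hp, hz⟩ hL
  have h2 := hasFDerivAt_UK (b := fun r => shP (b r)) (NT_spec hp).2.2 (hasFDerivAt_shP hb) hK' hx
    (xe ξ) (bt ξ)
  have h3 : (fun r => UU dT (aT ξ) (xT ξ) (bt ξ) (CT ξ) Lf (b r, x r)) =
      UK D0 K (xe ξ) (bt ξ) (fun r => shP (b r)) x := funext fun r => (UK_eq_UU hK r).symm
  rw [h3] at h1
  have h4 := h1.unique h2
  rw [← h4]
  unfold flT
  rw [one_mul, ← sqd_dT]
  rfl

/-- **chart at infinity** -/
theorem flat_far (hξ : IsCl ξ) (hb : HasFDerivAt b B q) (hx : HasFDerivAt x x' q)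
    (hp : b q ∈ PT NT) (h0 : x q ≠ 0) (h8 : ‖x q‖ < 1 / 8)
    (hK : ∀ ε x c, K (ε, x) c =
      af0 ε c 0 * MI ct ε 0 x + af0 ε c 1 * MI ct ε 1 x + ∑ l, c l * log (1 - ct l * x))
    (hK' : HasFDerivAt K K' (ep (shP (b q)), x q)) :
    flT ξ b (fun r => (x r)⁻¹) 1 q =
      UKD D0 (K (ep (shP (b q)), x q)) K' (xe ξ) (bt ξ) (shP (b q)) B x' := by
  have h1 := far_hasFDerivAt (coreIn_theta hξ) (hE_theta hξ) hb.differentiableAt
    hx.differentiableAt hp h0 h8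
  have h2 := hasFDerivAt_UK (b := fun r => shP (b r)) (NT_spec hp).2.2 (hasFDerivAt_shP hb) hK' hx
    (xe ξ) (bt ξ)
  have h3 : (fun r => UI dT (aT ξ) (xT ξ) (bt ξ) (CT ξ) (b r, x r)) =
      UK D0 K (xe ξ) (bt ξ) (fun r => shP (b r)) x := funext fun r => (UK_eq_UI hK r).symm
  rw [h3] at h1
  have h4 := h1.unique h2
  rw [← h4]
  unfold flT
  rw [one_mul, ← sqd_dT]
  rfl

/-- the rotated logarithms are local logarithms -/
theorem isLg_rot {e x u a : ℂ} (hu : ‖u‖ = 1) (hx : (x - e) * u ∈ slitPlane) (ha : a.re = 0) :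
    IsLg e (fun x => log ((x - e) * u) + a) x := by
  have hu0 : u ≠ 0 := by
    intro h
    rw [h, norm_zero] at hu
    exact zero_ne_one hu
  refine ⟨?_, ?_⟩
  · have h1 := ((((hasDerivAt_id x).sub_const e).mul_const u).clog hx).add_const a
    refine h1.congr_deriv ?_
    simp only [id]
    have h2 : (x - e) * u ≠ 0 := slitPlane_ne_zero hx
    have h3 : x - e ≠ 0 := left_ne_zero_of_mul h2
    field_simp
  · rw [add_re, ha, log_re, norm_mul, hu, mul_one, add_zero]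

theorem KU_form (u a : Fin 3 → ℂ) (ε : E3) (x : ℂ) (c : E3) :
    KU sep_ctr ell0 u a (ε, x) c = af0 ε c 0 * MM ct ε 0 x + af0 ε c 1 * MM ct ε 1 x +
      ∑ l, c l * (log ((x - ct l) * u l) + a l) := by
  rw [KU_apply, Fin.sum_univ_two]
  rfl

theorem KF_form (ε : E3) (x : ℂ) (c : E3) :
    KF sep_ctr ell0 (ε, x) c = af0 ε c 0 * MI ct ε 0 x + af0 ε c 1 * MI ct ε 1 x +
      ∑ l, c l * log (1 - ct l * x) := by
  rw [KF_apply, Fin.sum_univ_two]
  rfl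

/-- **near chart, 517's primitive** -/
theorem flat_near_KU (hξ : IsCl ξ) (hb : HasFDerivAt b B q) (hx : HasFDerivAt x x' q)
    (hp : b q ∈ PT NT) (hz : ∀ k, 1 / 128 < ‖x q - ct k‖) {u a : Fin 3 → ℂ}
    (hu : ∀ l, ‖u l‖ = 1) (hu' : ∀ l, (x q - ct l) * u l ∈ slitPlane) (ha : ∀ l, (a l).re = 0)
    (hK' : HasFDerivAt (KU sep_ctr ell0 u a) K' (ep (shP (b q)), x q)) :
    flT ξ b x 1 q = UKD D0 (KU sep_ctr ell0 u a (ep (shP (b q)), x q)) K' (xe ξ) (bt ξ)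
      (shP (b q)) B x' :=
  flat_near hξ hb hx hp hz (fun l => isLg_rot (hu l) (hu' l) (ha l))
    (fun ε x c => KU_form u a ε x c) hK'

/-- **chart at infinity, 517's primitive** -/
theorem flat_far_KF (hξ : IsCl ξ) (hb : HasFDerivAt b B q) (hx : HasFDerivAt x x' q)
    (hp : b q ∈ PT NT) (h0 : x q ≠ 0) (h8 : ‖x q‖ < 1 / 8)
    (hK' : HasFDerivAt (KF sep_ctr ell0) K' (ep (shP (b q)), x q)) :
    flT ξ b (fun r => (x r)⁻¹) 1 q = UKD D0 (KF sep_ctr ell0 (ep (shP (b q)), x q)) K'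
      (xe ξ) (bt ξ) (shP (b q)) B x' :=
  flat_far hξ hb hx hp h0 h8 KF_form hK'

end Vale.Agent.P273.H722
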