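import Vale.Agent.P273.H722.Theta3

/-!
P273, row POT-ASY [B], part 5: `al`-derivatives, limits, linearity.
-/

noncomputable section

namespace Vale.Agent.P273.H722

open Finset Complex

theorem rr_smul {ι : Type} [Fintype ι] (M : ι → ℝ) {c : ℝ} (hc : c ≠ 0) (k : ι) :
    rr (fun l => c * M l) k = rr M k := by
  unfold rr
  have h1 : ∀ l, (c * M l)⁻¹ = c⁻¹ * (M l)⁻¹ := fun l => mul_inv _ _
  rw [h1, sum_congr rfl fun l _ => h1 l, ← mul_sum, mul_div_mul_left _ _ (inv_ne_zero hc)]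

variable {ι : Type} [Fintype ι] [Nonempty ι]

namespace KapData

variable {D : KapData ι} {m Λ : ℝ} {p : Pa ι} {ξ β : ι → ℝ}

section

variable [DecidableEq ι]

/-- **`al l`-derivatives.** -/
theorem bounds_a (h : D.Big m p) (hΛ : ∀ k, |p.2 k| ≤ Λ) (ξ β : ι → ℝ) (l : ι) :
    |fderiv ℝ (D.CC ξ β) p (ea l)| ≤ D.A0 Λ * sz ξ β ∧
    (∀ k, |fderiv ℝ (fun q => D.wf ξ β q k) p (ea l)| ≤ D.A0 Λ * sz ξ β) ∧
    |fderiv ℝ (D.CC ξ β) p (ea l) - rr p.1 l * (β l / (2 * Real.pi))| ≤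
      D.A0 Λ * sz ξ β / p.1 l ∧
    ∀ k, |fderiv ℝ (fun q => D.wf ξ β q k) p (ea l) -
      (rr p.1 l - if k = l then 1 else 0) * (β l / (2 * Real.pi))| ≤
      D.A0 Λ * sz ξ β / p.1 l := by
  obtain ⟨hW, hB, hS, hx, hb, hy8, hmy, hm8, h8, hκ, hn⟩ := facts h hΛ ξ β l
  have hb0 := D.bb_nonneg ξ β p l
  have hs := sz_nonneg ξ β
  have hA : D.A0 Λ * sz ξ β = 16 * D.κ * (D.W0 Λ * sz ξ β) +
      4 * (3 * nn ι + 1) * (D.B0 Λ * sz ξ β) + 16 * (D.κ * sz ξ β) := by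
    unfold A0; ring
  obtain ⟨s1, s2, s3⟩ := core_a h ξ β l
  have hy0 : 0 < p.1 l := by linarith
  set y := p.1 l with hydef
  set t := β l / (2 * Real.pi) with htdef
  set b := D.bb ξ β p l with hbdef
  set B := D.B0 Λ * sz ξ β with hBdef
  set s := sz ξ β with hsdef
  have ht : |t| ≤ s := by
    rw [htdef, abs_div, abs_of_pos (by positivity : (0 : ℝ) < 2 * Real.pi)]
    refine (div_le_self (abs_nonneg _) (by linarith [Real.pi_gt_three])).trans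
      ((norm_le_pi_norm β l).trans ?_)
    exact le_add_of_nonneg_left (norm_nonneg _)
  have hby : b ≤ B / y := by
    refine hb.trans ?_
    have h1 : B * (2 / y ^ 2) = 2 / y * (B / y) := by ring
    rw [h1]
    refine mul_le_of_le_one_left (by positivity) ?_
    rw [div_le_one hy0]; linarith
  have hb1 : b ≤ B := hby.trans (div_le_self hB (by linarith))
  have e1 : 2 * m * |t| / y ≤ 2 * s := by
    rw [div_le_iff₀ hy0]
    nlinarith [mul_le_mul hmy ht (abs_nonneg t) hy0.le]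
  have e2 : 8 * D.κ * |t| / y ≤ 8 * (D.κ * s) / y := by
    refine div_le_div_of_nonneg_right ?_ hy0.le
    nlinarith
  have e3 : 8 * (D.κ * s) / y ≤ 8 * (D.κ * s) := div_le_self (by positivity) (by linarith)
  have hsκ : s ≤ D.κ * s := le_mul_of_one_le_left hs hκ
  have hnB : 0 ≤ nn ι * B := mul_nonneg hn hB
  have hnb : nn ι * b ≤ nn ι * B := mul_le_mul_of_nonneg_left hb1 hn
  have hκW : 0 ≤ 16 * D.κ * (D.W0 Λ * s) := by positivity
  have f2 : 8 * D.κ * |t| / y + (nn ι + 1) * b ≤ D.A0 Λ * s / 2 / y := by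
    have h1 : (nn ι + 1) * b ≤ (nn ι + 1) * (B / y) :=
      mul_le_mul_of_nonneg_left hby (by linarith)
    have h2 : 8 * (D.κ * s) / y + (nn ι + 1) * (B / y) =
      (8 * (D.κ * s) + (nn ι + 1) * B) / y := by ring
    have h3 : (8 * (D.κ * s) + (nn ι + 1) * B) / y ≤ D.A0 Λ * s / 2 / y := by
      refine div_le_div_of_nonneg_right ?_ hy0.le
      rw [hA]
      linarith
    linarith
  have f1 : 8 * D.κ * |t| / y + (nn ι + 1) * b ≤ 8 * (D.κ * s) + (nn ι + 1) * B := by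
    have h1 : (nn ι + 1) * b ≤ (nn ι + 1) * B :=
      mul_le_mul_of_nonneg_left hb1 (by linarith)
    linarith
  have hA0 : 0 ≤ D.A0 Λ * s := by rw [hA]; linarith
  refine ⟨?_, fun k => ?_, ?_, fun k => ?_⟩
  · refine s1.trans ?_
    rw [hA]
    linarith
  · have h1 : fderiv ℝ (fun q => D.wf ξ β q k) p (ea l) =
        (fderiv ℝ (fun q => D.wf ξ β q k) p (ea l) - (fderiv ℝ (D.CC ξ β) p (ea l) +
          if k = l then 0 - t else 0)) + fderiv ℝ (D.CC ξ β) p (ea l) +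
          (if k = l then 0 - t else 0) := by ring
    have h2 : |(if k = l then 0 - t else 0)| ≤ s := by
      by_cases hk : k = l
      · simpa [hk] using ht
      · simpa [hk] using hs
    rw [h1]
    refine (abs_add_le _ _).trans ((add_le_add ((abs_add_le _ _).trans
      (add_le_add (s3 k) s1)) h2).trans ?_)
    rw [hA]
    linarith
  · refine s2.trans (f2.trans (div_le_div_of_nonneg_right ?_ hy0.le))
    linarith
  · have h1 : fderiv ℝ (fun q => D.wf ξ β q k) p (ea l) -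
        (rr p.1 l - if k = l then 1 else 0) * t =
        (fderiv ℝ (fun q => D.wf ξ β q k) p (ea l) - (fderiv ℝ (D.CC ξ β) p (ea l) +
          if k = l then 0 - t else 0)) + (fderiv ℝ (D.CC ξ β) p (ea l) - rr p.1 l * t) := by
      by_cases hk : k = l
      · simp only [hk, if_true]; ring
      · simp only [hk, if_false]; ring
    rw [h1]
    refine (abs_add_le _ _).trans ((add_le_add ((s3 k).trans f2) (s2.trans f2)).trans
      (le_of_eq ?_))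
    ring

/-- **`al l`-derivatives for `β = 0`** are exponentially small. -/
theorem bounds_a_alpha (h : D.Big m p) (hΛ : ∀ k, |p.2 k| ≤ Λ) (ξ : ι → ℝ) (l : ι) :
    |fderiv ℝ (D.CC ξ 0) p (ea l)| ≤ D.A0 Λ * ‖ξ‖ * Real.exp (-(p.1 l)) ∧
    ∀ k, |fderiv ℝ (fun q => D.wf ξ 0 q k) p (ea l)| ≤
      D.A0 Λ * ‖ξ‖ * Real.exp (-(p.1 l)) := by
  obtain ⟨hW, hB, hS, hx, hb, hy8, hmy, hm8, h8, hκ, hn⟩ := facts h hΛ ξ 0 l
  have hb0 := D.bb_nonneg ξ 0 p l
  have hbl := bb_le (ξ := ξ) (β := 0) h hΛ l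
  obtain ⟨s1, s2, s3⟩ := core_a h ξ 0 l
  have hsz : sz ξ (0 : ι → ℝ) = ‖ξ‖ := by unfold sz; rw [norm_zero, add_zero]
  rw [hsz] at hW hB hS hbl
  simp only [Pi.zero_apply, zero_div, abs_zero, mul_zero, zero_add, sub_zero, ite_self,
    add_zero] at s1 s2 s3
  have he := Real.exp_pos (-(p.1 l))
  have hA : D.A0 Λ * ‖ξ‖ = 16 * D.κ * (D.W0 Λ * ‖ξ‖) +
      4 * (3 * nn ι + 1) * (D.B0 Λ * ‖ξ‖) + 16 * (D.κ * ‖ξ‖) := by
    unfold A0; ring
  have hκW : 0 ≤ 16 * D.κ * (D.W0 Λ * ‖ξ‖) := by positivity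
  have hnB : 0 ≤ nn ι * (D.B0 Λ * ‖ξ‖) := mul_nonneg hn hB
  have hbig : (3 * nn ι + 1) * D.bb ξ 0 p l ≤ D.A0 Λ * ‖ξ‖ * Real.exp (-(p.1 l)) := by
    calc (3 * nn ι + 1) * D.bb ξ 0 p l ≤
          (3 * nn ι + 1) * (D.B0 Λ * ‖ξ‖ * Real.exp (-(p.1 l))) :=
          mul_le_mul_of_nonneg_left hbl (by positivity)
      _ = ((3 * nn ι + 1) * (D.B0 Λ * ‖ξ‖)) * Real.exp (-(p.1 l)) := by ring
      _ ≤ _ := mul_le_mul_of_nonneg_right (by rw [hA]; linarith) he.le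
  have hnb : 0 ≤ nn ι * D.bb ξ 0 p l := mul_nonneg hn hb0
  refine ⟨by linarith, fun k => ?_⟩
  have h1 : fderiv ℝ (fun q => D.wf ξ 0 q k) p (ea l) =
      (fderiv ℝ (fun q => D.wf ξ 0 q k) p (ea l) - fderiv ℝ (D.CC ξ 0) p (ea l)) +
        fderiv ℝ (D.CC ξ 0) p (ea l) := by ring
  rw [h1]
  have := s3 k
  have h2 := abs_add_le (fderiv ℝ (fun q => D.wf ξ 0 q k) p (ea l) -
    fderiv ℝ (D.CC ξ 0) p (ea l)) (fderiv ℝ (D.CC ξ 0) p (ea l))
  linarith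

end

/-! ### Limits -/

/-- The limit of the right hand side. -/
def g0 (D : KapData ι) (ξ β : ι → ℝ) (p : Pa ι) : ι → ℝ := fun k =>
  ξ k + β k * p.2 k / (2 * Real.pi) - RG β (D.kap 0) k

omit [Nonempty ι] in
theorem g0_zero (D : KapData ι) (ξ : ι → ℝ) (p : Pa ι) : D.g0 ξ 0 p = ξ := by
  funext k
  unfold g0
  have h1 : RG (0 : ι → ℝ) (D.kap 0) k = 0 := by
    rw [RG_apply]
    have : ib (0 : ι → ℝ) = 0 := by funext l; simp [ib]
    rw [this, map_zero]; rfl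
  rw [h1]
  simp

omit [Nonempty ι] in
theorem norm_kap_sub_le (D : KapData ι) {e : ι → ℂ} (he : ‖e‖ < D.ρ) :
    ‖D.kap e - D.kap 0‖ ≤ D.κ * ‖e‖ := by
  have h1 := (convex_ball (0 : ι → ℂ) D.ρ).norm_image_sub_le_of_norm_fderiv_le (𝕜 := ℝ)
    (f := D.kap) (C := D.κ) (x := 0) (y := e)
    (fun x hx => (D.smooth x (by simpa using hx)).differentiableAt (by simp))
    (fun x hx => D.dbound x (by simpa using hx)) (Metric.mem_ball_self D.ρ_pos)
    (by simpa using he)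
  simpa using h1

omit [Nonempty ι] in
theorem abs_gg_sub_le (h : D.Big m p) (ξ β : ι → ℝ) (k : ι) :
    |D.gg ξ β p k - D.g0 ξ β p k| ≤ D.κ * ‖β‖ * Real.exp (-m) := by
  have h1 : D.gg ξ β p k - D.g0 ξ β p k = -(RG β (D.kap (ep p) - D.kap 0) k) := by
    unfold gg g0
    rw [map_sub, Pi.sub_apply]; ring
  rw [h1, abs_neg]
  have h2 : |RG β (D.kap (ep p) - D.kap 0) k| ≤ ‖RG β (D.kap (ep p) - D.kap 0)‖ :=
    norm_le_pi_norm (RG β (D.kap (ep p) - D.kap 0)) k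
  refine h2.trans ((norm_RG_le _ _).trans ?_)
  have h3 := D.norm_kap_sub_le h.ep_lt
  have h4 : ‖ep p‖ ≤ Real.exp (-m) := norm_ep_le h.le
  have h5 : D.κ * ‖ep p‖ ≤ D.κ * Real.exp (-m) :=
    mul_le_mul_of_nonneg_left h4 (zero_le_one.trans D.κ_one)
  calc ‖β‖ * ‖D.kap (ep p) - D.kap 0‖ ≤ ‖β‖ * (D.κ * Real.exp (-m)) :=
        mul_le_mul_of_nonneg_left (h3.trans h5) (norm_nonneg _)
    _ = _ := by ring

/-- **Values**: bounds and first order asymptotics. -/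
theorem bounds_v (h : D.Big m p) (hΛ : ∀ k, |p.2 k| ≤ Λ) (ξ β : ι → ℝ) :
    |D.CC ξ β p| ≤ D.A0 Λ * sz ξ β ∧ (∀ k, |D.wf ξ β p k| ≤ D.A0 Λ * sz ξ β) ∧
    (∀ k, |D.xx ξ β p k| ≤ D.A0 Λ * sz ξ β / p.1 k) ∧
    |D.CC ξ β p - ∑ k, rr p.1 k * D.g0 ξ β p k| ≤ D.A0 Λ * sz ξ β / m ∧
    ∀ k, |D.wf ξ β p k - (∑ l, rr p.1 l * D.g0 ξ β p l - D.g0 ξ β p k)| ≤
      D.A0 Λ * sz ξ β / m := by
  have l₀ : ι := Classical.arbitrary ι
  obtain ⟨hW, hB, hS, -, -, -, -, hm8, h8, hκ, hn⟩ := facts h hΛ ξ β l₀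
  obtain ⟨-, b2, b3, b4, b5⟩ := bounds0 (ξ := ξ) (β := β) h hΛ
  have h0 : 0 ≤ Λ := (abs_nonneg _).trans (hΛ l₀)
  have hs := sz_nonneg ξ β
  set s := sz ξ β with hsdef
  have hm0 : 0 < m := by linarith
  have hA : D.A0 Λ * s = 16 * D.κ * (D.W0 Λ * s) +
      4 * (3 * nn ι + 1) * (D.B0 Λ * s) + 16 * (D.κ * s) := by
    unfold A0; ring
  have hG : 0 ≤ (1 + Λ + D.κ) * s := by positivity
  have hW' : D.W0 Λ * s = (3 * nn ι + 1) * ((1 + Λ + D.κ) * s) := by unfold W0; ring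
  have hnG : 0 ≤ nn ι * ((1 + Λ + D.κ) * s) := mul_nonneg hn hG
  have hWκ : D.W0 Λ * s ≤ D.κ * (D.W0 Λ * s) := le_mul_of_one_le_left hW hκ
  have hnB : 0 ≤ nn ι * (D.B0 Λ * s) := mul_nonneg hn hB
  have hAW : 16 * (D.W0 Λ * s) ≤ D.A0 Λ * s := by rw [hA]; linarith
  have hw : ∀ k, |D.wf ξ β p k| ≤ D.W0 Λ * s := fun k => by rw [hW']; exact b3 k
  have hkey : 16 * D.κ * nn ι * ((1 + Λ + D.κ) * s) + 2 * (D.κ * s) ≤ D.A0 Λ * s := by
    have h1 : 16 * D.κ * nn ι * ((1 + Λ + D.κ) * s) ≤ 16 * D.κ * (D.W0 Λ * s) := by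
      rw [hW']
      have h2 : 0 ≤ 16 * D.κ := by linarith
      have h3 : nn ι * ((1 + Λ + D.κ) * s) ≤ (3 * nn ι + 1) * ((1 + Λ + D.κ) * s) := by
        nlinarith
      calc _ = 16 * D.κ * (nn ι * ((1 + Λ + D.κ) * s)) := by ring
        _ ≤ _ := mul_le_mul_of_nonneg_left h3 h2
    rw [hA]
    linarith
  have hexp : Real.exp (-m) ≤ 1 / m := by
    have h1 := exp_neg_le hm0
    refine h1.trans ?_
    rw [div_le_div_iff₀ (by positivity) hm0]
    nlinarith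
  have hβ : ‖β‖ ≤ s := le_add_of_nonneg_left (norm_nonneg _)
  have hd : ∀ k, |D.gg ξ β p k - D.g0 ξ β p k| ≤ D.κ * s / m := by
    intro k
    refine (abs_gg_sub_le h ξ β k).trans ?_
    have h1 : D.κ * ‖β‖ ≤ D.κ * s := mul_le_mul_of_nonneg_left hβ (by linarith)
    calc D.κ * ‖β‖ * Real.exp (-m) ≤ D.κ * s * (1 / m) :=
          mul_le_mul h1 hexp (Real.exp_pos _).le (by positivity)
      _ = _ := by ring
  have hy : ∀ k, 0 < p.1 k := fun k => hm0.trans_le (h.le k)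
  have hsum : |∑ k, rr p.1 k * D.gg ξ β p k - ∑ k, rr p.1 k * D.g0 ξ β p k| ≤
      D.κ * s / m := by
    rw [← sum_sub_distrib]
    have h1 : ∑ k, (rr p.1 k * D.gg ξ β p k - rr p.1 k * D.g0 ξ β p k) =
        ∑ k, rr p.1 k * (D.gg ξ β p k - D.g0 ξ β p k) :=
      sum_congr rfl fun k _ => by ring
    rw [h1]
    exact abs_sum_rr_le hy _ hd
  refine ⟨?_, fun k => (hw k).trans (by linarith), fun k => ?_, ?_, fun k => ?_⟩
  · refine b2.trans ?_
    linarith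
  · have h1 := hw k
    unfold wf at h1
    rw [abs_mul, abs_of_pos (half_pos (hy k))] at h1
    rw [le_div_iff₀ (hy k)]
    linarith
  · have h1 := abs_add_le (D.CC ξ β p - ∑ k, rr p.1 k * D.gg ξ β p k)
      (∑ k, rr p.1 k * D.gg ξ β p k - ∑ k, rr p.1 k * D.g0 ξ β p k)
    rw [sub_add_sub_cancel] at h1
    refine (h1.trans (add_le_add b4 hsum)).trans ?_
    rw [← add_div]
    refine div_le_div_of_nonneg_right (le_trans ?_ hkey) hm0.le
    have : 0 ≤ 8 * D.κ * nn ι * ((1 + Λ + D.κ) * s) := by positivity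
    have : 0 ≤ D.κ * s := by positivity
    linarith
  · have h1 : D.wf ξ β p k - (∑ l, rr p.1 l * D.g0 ξ β p l - D.g0 ξ β p k) =
        (D.wf ξ β p k - (∑ l, rr p.1 l * D.gg ξ β p l - D.gg ξ β p k)) +
        ((∑ k, rr p.1 k * D.gg ξ β p k - ∑ k, rr p.1 k * D.g0 ξ β p k) -
        (D.gg ξ β p k - D.g0 ξ β p k)) := by ring
    rw [h1]
    refine (abs_add_le _ _).trans ((add_le_add (b5 k) ((abs_sub _ _).trans
      (add_le_add hsum (hd k)))).trans ?_)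
    rw [← add_div, ← add_div]
    refine div_le_div_of_nonneg_right (le_trans (le_of_eq ?_) hkey) hm0.le
    ring

/-! ### Linearity -/

omit [Nonempty ι] in
theorem gg_add (D : KapData ι) (ξ ξ' β β' : ι → ℝ) (p : Pa ι) :
    D.gg (ξ + ξ') (β + β') p = D.gg ξ β p + D.gg ξ' β' p := by
  funext k
  have h1 : ib (β + β') = ib β + ib β' := by funext l; simp [ib]; ring
  have h2 : RG (β + β') (D.kap (ep p)) k =
      RG β (D.kap (ep p)) k + RG β' (D.kap (ep p)) k := by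
    rw [RG_apply, RG_apply, RG_apply, h1, map_add, Pi.add_apply, Complex.add_re]
  unfold gg
  simp only [Pi.add_apply]
  rw [h2]
  ring

omit [Nonempty ι] in
theorem gg_smul (D : KapData ι) (c : ℝ) (ξ β : ι → ℝ) (p : Pa ι) :
    D.gg (c • ξ) (c • β) p = c • D.gg ξ β p := by
  funext k
  have h1 : ib (c • β) = (c : ℂ) • ib β := by funext l; simp [ib]; ring
  have h2 : RG (c • β) (D.kap (ep p)) k = c * RG β (D.kap (ep p)) k := by
    rw [RG_apply, RG_apply, h1, map_smul, Pi.smul_apply, smul_eq_mul, Complex.re_ofReal_mul]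
  unfold gg
  simp only [Pi.smul_apply, smul_eq_mul]
  rw [h2]
  ring

omit [Nonempty ι] in
theorem ss_add (D : KapData ι) (ξ ξ' β β' : ι → ℝ) (p : Pa ι) :
    D.ss (ξ + ξ') (β + β') p = D.ss ξ β p + D.ss ξ' β' p := by
  unfold ss sol
  rw [gg_add, ← map_add]
  congr 1
  ext <;> simp

omit [Nonempty ι] in
theorem ss_smul (D : KapData ι) (c : ℝ) (ξ β : ι → ℝ) (p : Pa ι) :
    D.ss (c • ξ) (c • β) p = c • D.ss ξ β p := by
  unfold ss sol
  rw [gg_smul, ← map_smul]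
  congr 1
  ext <;> simp

/-- Uniqueness: a solution of the equations is `(xx, CC)`. -/
theorem eq_of_isSol (h : D.Big m p) {x : ι → ℝ} {C : ℝ}
    (hx : ∀ k, -(p.1 k / 2) * x k + (D.kap (ep p) (fun l => (x l : ℂ)) k).re + C =
      ξ k + β k * p.2 k / (2 * Real.pi) - (D.kap (ep p) (ib β) k).re)
    (h0 : ∑ k, x k = 0) : x = D.xx ξ β p ∧ C = D.CC ξ β p :=
  IsSol.eq_sol (M := MM p) (K := D.KK p) (g := D.gg ξ β p) ⟨hx, h0⟩ h.hM h.hm h.hm0 h.hK h.hmκ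

end KapData

end Vale.Agent.P273.H722
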