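import Vale.Agent.P273.H722.UCore
import Vale.Agent.P273.H580.Eta

/-!
# P273, LIM-D (U), cores, consumer forms

* `hasFDerivAt_UU`: the potential with local logarithms;
* `core_hasFDerivAt`, `core_hasFDerivAt_neg`: pulled back along a map, both cores;
* `far_hasFDerivAt`: chart `w = 1 / x`;
* `hZ_of_pot`: the input from the potential of 580 / 908.
-/

noncomputable section

namespace Vale.Agent.P273.H722

open Set Filter Topology Complex
open scoped ContDiff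
open Vale.Agent.P273.H214 (Bs ff FlatOn)
open Vale.Agent.P273.H517

variable {Q : Type*} [NormedAddCommGroup Q] [NormedSpace ℝ Q]
  {O : Set Bs} {η : Bs → ℂ → ℂ → (Bs × ℂ →L[ℝ] ℝ)} {A : Bs → (ℂ × ℂ →L[ℝ] ℝ)}
  {P0 : Set Q} {d : Q → Fin 3 → ℂ} {a : Q → Fin 2 → ℂ} {cR : Q → Fin 3 → ℝ} {β : Fin 3 → ℝ}
  {C : Q → ℝ}

/-- the potential with local logarithms -/
def UU (d : Q → Fin 3 → ℂ) (a : Q → Fin 2 → ℂ) (cR : Q → Fin 3 → ℝ) (β : Fin 3 → ℝ) (C : Q → ℝ)
    (Lf : Fin 3 → ℂ → ℂ) (q : Q × ℂ) : ℝ :=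
  C q.1 + (a q.1 0 * MM ct (sqd d q.1) 0 q.2 + a q.1 1 * MM ct (sqd d q.1) 1 q.2 +
    ∑ l, ((cR q.1 l : ℂ) + ((β l / Real.pi : ℝ) : ℂ) * I) * Lf l q.2).re

/-- a local logarithm of `x - e`, with its real part -/
structure IsLg (e : ℂ) (L : ℂ → ℂ) (x : ℂ) : Prop where
  der : HasDerivAt L ((x - e)⁻¹) x
  re : (L x).re = Real.log ‖x - e‖

/-- the derivative of the potential with local logarithms -/
theorem hasFDerivAt_UU (h : CoreIn O η A P0 d a cR β C) {p : Q × ℂ} (hp : p ∈ Om P0)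
    {Lf : Fin 3 → ℂ → ℂ} (hL : ∀ l, IsLg (ct l) (Lf l) p.2) :
    HasFDerivAt (UU d a cR β C Lf)
      (fderiv ℝ (FF d a cR C) p - ∑ l, (β l / Real.pi) • ang (ct l) p) p := by
  have h1 : HasFDerivAt (FF d a cR C) (fderiv ℝ (FF d a cR C) p) p :=
    ((contDiffAt_FF h hp).differentiableAt (by norm_num)).hasFDerivAt
  have h2 : ∀ l ∈ Finset.univ, HasFDerivAt (fun q : Q × ℂ =>
      cR q.1 l * ((Lf l q.2).re - Real.log ‖q.2 - ct l‖) - (β l / Real.pi) * (Lf l q.2).im)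
      (-((β l / Real.pi) • ang (ct l) p)) p := by
    intro l _
    have a1 : HasFDerivAt (fun q : Q × ℂ => (Lf l q.2).re)
        (reCLM.comp ((p.2 - ct l)⁻¹ • (ContinuousLinearMap.snd ℝ Q ℂ))) p :=
      reCLM.hasFDerivAt.comp p (hasFDerivAt_snd_of (hL l).der)
    have a2 : HasFDerivAt (fun q : Q × ℂ => (Lf l q.2).im) (ang (ct l) p) p :=
      imCLM.hasFDerivAt.comp p (hasFDerivAt_snd_of (hL l).der)
    have a3 : HasFDerivAt (fun q : Q × ℂ => Real.log ‖q.2 - ct l‖)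
        ((reCLM.comp ((p.2 - ct l)⁻¹ • (1 : ℂ →L[ℝ] ℂ))).comp (ContinuousLinearMap.snd ℝ Q ℂ)) p :=
      HasFDerivAt.comp (g := fun x : ℂ => Real.log ‖x - ct l‖) (f := fun q : Q × ℂ => q.2) p
        (hasFDerivAt_log_norm (ne_ct hp.2 l)) hasFDerivAt_snd
    have a4 : HasFDerivAt (fun q : Q × ℂ => cR q.1 l) ((fderiv ℝ (fun q => cR q l) p.1).comp
        (ContinuousLinearMap.fst ℝ Q ℂ)) p := by
      have b1 : DifferentiableAt ℝ (fun q => cR q l) p.1 :=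
        ((contDiffAt_pi.1 (h.sc _ hp.1)) l).differentiableAt (by norm_num)
      exact HasFDerivAt.comp (g := fun q : Q => cR q l) p b1.hasFDerivAt hasFDerivAt_fst
    have a5 := (a4.mul (a1.sub a3)).sub (a2.const_mul (β l / Real.pi))
    refine a5.congr_fderiv ?_
    refine ContinuousLinearMap.ext fun v => ?_
    simp only [ContinuousLinearMap.comp_apply, smul_apply, add_apply, sub_apply, neg_apply,
      Pi.sub_apply, reCLM_apply, smul_eq_mul, ContinuousLinearMap.coe_snd', ContinuousLinearMap.coe_fst',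
      (hL l).re, sub_self, zero_mul, one_apply_eq_self]
    ring
  have h3 := h1.add (HasFDerivAt.fun_sum h2)
  rw [Finset.sum_neg_distrib, ← sub_eq_add_neg] at h3
  refine h3.congr_of_eventuallyEq (Eventually.of_forall fun q => ?_)
  simp only [UU, FF, Pi.add_apply]
  rw [add_re _ (∑ l, _), re_sum, add_assoc, add_assoc, ← Finset.sum_add_distrib]
  congr 2
  refine Finset.sum_congr rfl fun l _ => ?_
  simp only [mul_re, add_re, add_im, mul_im, ofReal_re, ofReal_im, I_re, I_im]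
  ring

/-- the pulled back form is the derivative of the potential -/
theorem hasFDerivAt_UU_es (h : CoreIn O η A P0 d a cR β C) {p : Q × ℂ} (hp : p ∈ Om P0)
    (hE : om η d β p = fderiv ℝ (FF d a cR C) p)
    {Lf : Fin 3 → ℂ → ℂ} (hL : ∀ l, IsLg (ct l) (Lf l) p.2) :
    HasFDerivAt (UU d a cR β C Lf) (es η d p) p := by
  refine (hasFDerivAt_UU h hp hL).congr_fderiv ?_
  rw [← hE]
  unfold om
  rw [add_sub_cancel_right]

section Comp

variable {E : Type*} [NormedAddCommGroup E] [NormedSpace ℝ E]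

/-- **cores, pulled back along a map** (`x` = core coordinate) -/
theorem core_hasFDerivAt (h : CoreIn O η A P0 d a cR β C)
    (hE : ∀ p ∈ Om P0, om η d β p = fderiv ℝ (FF d a cR C) p) {b : E → Q} {x : E → ℂ} {q : E}
    (hb : DifferentiableAt ℝ b q) (hx : DifferentiableAt ℝ x q) (hp : (b q, x q) ∈ Om P0)
    {Lf : Fin 3 → ℂ → ℂ} (hL : ∀ l, IsLg (ct l) (Lf l) (x q)) :
    HasFDerivAt (fun r => UU d a cR β C Lf (b r, x r))
      ((η (H828.th (d (b q))) (x q) (yc (sqd d (b q)) (x q))).comp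
        (fderiv ℝ (fun r => (H828.th (d (b r)), x r)) q)) q := by
  have h1 : HasFDerivAt (fun r => (b r, x r)) ((fderiv ℝ b q).prod (fderiv ℝ x q)) q :=
    hb.hasFDerivAt.prodMk hx.hasFDerivAt
  have h2 := HasFDerivAt.comp (g := UU d a cR β C Lf) (f := fun r => (b r, x r)) q
    (hasFDerivAt_UU_es h hp (hE _ hp) hL) h1
  refine h2.congr_fderiv ?_
  have h3 : DifferentiableAt ℝ (mm d) (b q, x q) :=
    (contDiffAt_mm (h.sd _ hp.1)).differentiableAt (by norm_num)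
  have h4 : HasFDerivAt (fun r => (H828.th (d (b r)), x r)) ((fderiv ℝ (mm d) (b q, x q)).comp
      ((fderiv ℝ b q).prod (fderiv ℝ x q))) q :=
    HasFDerivAt.comp (g := mm d) (f := fun r => (b r, x r)) q h3.hasFDerivAt h1
  rw [h4.fderiv]
  rfl

/-- the other core -/
theorem core_hasFDerivAt_neg (h : CoreIn O η A P0 d a cR β C)
    (hE : ∀ p ∈ Om P0, om η d β p = fderiv ℝ (FF d a cR C) p) {b : E → Q} {x : E → ℂ} {q : E}
    (hb : DifferentiableAt ℝ b q) (hx : DifferentiableAt ℝ x q) (hp : (b q, x q) ∈ Om P0)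
    {Lf : Fin 3 → ℂ → ℂ} (hL : ∀ l, IsLg (ct l) (Lf l) (x q)) :
    HasFDerivAt (fun r => -UU d a cR β C Lf (b r, x r))
      ((η (H828.th (d (b q))) (x q) (-yc (sqd d (b q)) (x q))).comp
        (fderiv ℝ (fun r => (H828.th (d (b r)), x r)) q)) q := by
  refine (core_hasFDerivAt h hE hb hx hp hL).neg.congr_fderiv ?_
  rw [h.flat.odd]
  rfl

end Comp

/-! ### the chart at infinity -/

/-- the potential in the chart `w = 1 / x` -/
def UI (d : Q → Fin 3 → ℂ) (a : Q → Fin 2 → ℂ) (cR : Q → Fin 3 → ℝ) (β : Fin 3 → ℝ) (C : Q → ℝ)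
    (q : Q × ℂ) : ℝ :=
  C q.1 + (a q.1 0 * MI ct (sqd d q.1) 0 q.2 + a q.1 1 * MI ct (sqd d q.1) 1 q.2 +
    ∑ l, ((cR q.1 l : ℂ) + ((β l / Real.pi : ℝ) : ℂ) * I) * log (1 - ct l * q.2)).re

/-- local logarithms near `x₀`, large -/
def Lfar (x₀ : ℂ) (l : Fin 3) (x : ℂ) : ℂ :=
  log (1 - ct l * x⁻¹) + (log (x * (starRingEnd ℂ) x₀) - (Real.log ‖x₀‖ : ℂ))

theorem norm_ct (l : Fin 3) : ‖ct l‖ ≤ 11 / 2 := by
  rw [ct_val]
  fin_cases l <;> norm_num

theorem far_ne {x : ℂ} (hx : 8 < ‖x‖) (l : Fin 3) :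
    ‖-(ct l * x⁻¹)‖ < 1 ∧ x - ct l ≠ 0 ∧ 1 / 128 < ‖x - ct l‖ := by
  have h0 := norm_ct l
  have h1 : ‖x‖ - ‖ct l‖ ≤ ‖x - ct l‖ := norm_sub_norm_le _ _
  refine ⟨?_, fun h => ?_, by linarith⟩
  · rw [norm_neg, norm_mul, norm_inv, ← div_eq_mul_inv, div_lt_one (by linarith)]
    linarith
  · rw [h, norm_zero] at h1
    linarith

theorem isLg_Lfar {x : ℂ} (hx : 8 < ‖x‖) (l : Fin 3) : IsLg (ct l) (Lfar x l) x := by
  obtain ⟨h1, h2, _⟩ := far_ne hx l
  have hx0 : x ≠ 0 := by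
    intro h
    rw [h, norm_zero] at hx
    linarith
  have h3 : 1 - ct l * x⁻¹ ∈ slitPlane := by
    rw [sub_eq_add_neg]
    exact mem_slitPlane_of_norm_lt_one h1
  have h4 : x * (starRingEnd ℂ) x ∈ slitPlane := by
    rw [mul_conj]
    exact ofReal_mem_slitPlane.2 (normSq_pos.2 hx0)
  have h5 : 1 - ct l * x⁻¹ ≠ 0 := slitPlane_ne_zero h3
  have h6 : (starRingEnd ℂ) x ≠ 0 := (map_ne_zero _).2 hx0
  refine ⟨?_, ?_⟩
  · have a1 := (((hasDerivAt_inv hx0).const_mul (ct l)).const_sub 1).clog h3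
    have a2 := (((hasDerivAt_id x).mul_const ((starRingEnd ℂ) x)).clog h4).sub_const
      (Real.log ‖x‖ : ℂ)
    refine (a1.add a2).congr_deriv ?_
    simp only [id]
    have h7 : x - ct l ≠ 0 := h2
    have h8 : 1 - ct l * x⁻¹ = (x - ct l) / x := by field_simp
    rw [h8]
    field_simp
    ring
  · have h7 : (0 : ℝ) < ‖x‖ := norm_pos_iff.2 hx0
    have h8 : (0 : ℝ) < ‖1 - ct l * x⁻¹‖ := norm_pos_iff.2 h5
    have h9 : ‖x - ct l‖ = ‖1 - ct l * x⁻¹‖ * ‖x‖ := by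
      rw [← norm_mul]
      congr 1
      field_simp
    unfold Lfar
    rw [add_re, sub_re, log_re, log_re, ofReal_re, norm_mul, RCLike.norm_conj, h9,
      Real.log_mul h7.ne' h7.ne', Real.log_mul h8.ne' h7.ne']
    ring

theorem sum_c (h : CoreIn O η A P0 d a cR β C) {p : Q} (hp : p ∈ P0) :
    ∑ l, ((cR p l : ℂ) + ((β l / Real.pi : ℝ) : ℂ) * I) = 0 := by
  rw [Finset.sum_congr rfl fun l _ => (h.res p hp l).symm, Finset.sum_add_distrib,
    ← Finset.mul_sum, ← Finset.mul_sum, sum_cm sep_ct (h.sm p hp) (by norm_num),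
    sum_cm sep_ct (h.sm p hp) le_rfl]
  simp

theorem UI_eq (h : CoreIn O η A P0 d a cR β C) {p : Q} (hp : p ∈ P0) {w : ℂ} (hw : w ≠ 0)
    (x₀ : ℂ) : UU d a cR β C (Lfar x₀) (p, w⁻¹) = UI d a cR β C (p, w) := by
  unfold UU UI Lfar
  simp only [MI_eq _ _ _ hw, inv_inv, mul_add, Finset.sum_add_distrib, ← Finset.sum_mul,
    sum_c h hp, zero_mul, add_zero]

section Far

variable {E : Type*} [NormedAddCommGroup E] [NormedSpace ℝ E]

/-- **cores in the chart at infinity** -/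
theorem far_hasFDerivAt (h : CoreIn O η A P0 d a cR β C)
    (hE : ∀ p ∈ Om P0, om η d β p = fderiv ℝ (FF d a cR C) p) {b : E → Q} {w : E → ℂ} {q : E}
    (hb : DifferentiableAt ℝ b q) (hw : DifferentiableAt ℝ w q) (hp : b q ∈ P0)
    (h0 : w q ≠ 0) (h8 : ‖w q‖ < 1 / 8) :
    HasFDerivAt (fun r => UI d a cR β C (b r, w r))
      ((η (H828.th (d (b q))) (w q)⁻¹ (yc (sqd d (b q)) (w q)⁻¹)).comp
        (fderiv ℝ (fun r => (H828.th (d (b r)), (w r)⁻¹)) q)) q := by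
  have h1 : 8 < ‖(w q)⁻¹‖ := by
    rw [norm_inv]
    have h2 : 0 < ‖w q‖ := norm_pos_iff.2 h0
    rw [lt_inv_comm₀ (by norm_num) h2]
    linarith
  have h2 := core_hasFDerivAt h hE hb (hw.inv h0) (x := fun r => (w r)⁻¹)
    ⟨hp, fun k => (far_ne h1 k).2.2⟩ (fun l => isLg_Lfar h1 l)
  refine h2.congr_of_eventuallyEq ?_
  filter_upwards [hb.continuousAt.eventually_mem (h.op.mem_nhds hp),
    hw.continuousAt.eventually_ne h0] with r h3 h4
  exact (UI_eq h h3 h4 _).symm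

/-- the other core -/
theorem far_hasFDerivAt_neg (h : CoreIn O η A P0 d a cR β C)
    (hE : ∀ p ∈ Om P0, om η d β p = fderiv ℝ (FF d a cR C) p) {b : E → Q} {w : E → ℂ} {q : E}
    (hb : DifferentiableAt ℝ b q) (hw : DifferentiableAt ℝ w q) (hp : b q ∈ P0)
    (h0 : w q ≠ 0) (h8 : ‖w q‖ < 1 / 8) :
    HasFDerivAt (fun r => -UI d a cR β C (b r, w r))
      ((η (H828.th (d (b q))) (w q)⁻¹ (-yc (sqd d (b q)) (w q)⁻¹)).comp
        (fderiv ℝ (fun r => (H828.th (d (b r)), (w r)⁻¹)) q)) q := by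
  refine (far_hasFDerivAt h hE hb hw hp h0 h8).neg.congr_fderiv ?_
  rw [h.flat.odd]
  rfl

end Far

/-! ### the input from the potential -/

section PotIn

open Vale.Agent.P273.H580

theorem th_im {e : Fin 3 → ℂ} (he : ∀ k, ‖e k‖ < 1 / 128) (l : Fin 6) :
    (H828.th e l).im < 1 := by
  have h : ∀ k, |(e k).im| < 1 / 128 := fun k => (abs_im_le_norm _).trans_lt (he k)
  have h0 := abs_lt.1 (h 0)
  have h1 := abs_lt.1 (h 1)
  have h2 := abs_lt.1 (h 2)
  fin_cases l <;> simp [H828.th] <;> linarith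

theorem norm_d (h : CoreIn O η A P0 d a cR β C) {p : Q} (hp : p ∈ P0) (k : Fin 3) :
    ‖d p k‖ < 1 / 128 := by
  have h1 := h.sm p hp k
  unfold sqd at h1
  rw [norm_pow] at h1
  exact lt_of_pow_lt_pow_left₀ 2 (by norm_num) h1

omit [NormedAddCommGroup Q] [NormedSpace ℝ Q] in
/-- `1 < Im x` is in the core -/
theorem mem_Om_of_im {p : Q} (hp : p ∈ P0) {x : ℂ} (hx : 1 < x.im) : (p, x) ∈ Om P0 := by
  refine ⟨hp, fun k => norm_of_im ?_⟩
  simp only [sub_im, ct_im, sub_zero]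
  exact hx.le.trans (le_abs_self _)

/-- **the input of `core_eq` from the potentials** (`lg` = a logarithm on the upper half plane) -/
theorem hZ_of_pot {Qp : Pot} {c : Bs → ℝ} {ξ : Fin 6 → ℝ} (hFl : Flat Qp A c ξ)
    (h : CoreIn O (eta Qp A c) A P0 d a cR β C)
    (hC : ∀ p ∈ P0, C p = c (H828.th (d p))) (hXO : ∀ p ∈ P0, H828.th (d p) ∈ XO)
    {lg : ℂ → ℂ} (hlg : ∀ z : ℂ, 0 < z.im → HasDerivAt lg z⁻¹ z ∧ (lg z).re = Real.log ‖z‖)
    (hP : ∀ p ∈ P0, ∀ x : ℂ, 1 < x.im → Qp.P ∅ (H828.th (d p), x) =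
      (∑ l, cm ct (sqd d p) 0 l * lg (x - ct l) + MM ct (sqd d p) 0 x,
        ∑ l, cm ct (sqd d p) 1 l * lg (x - ct l) + MM ct (sqd d p) 1 x)) :
    ∀ p ∈ P0, ∀ x : ℂ, 1 < x.im →
      om (eta Qp A c) d β (p, x) = fderiv ℝ (FF d a cR C) (p, x) := by
  intro p hp x hx
  have hm : (p, x) ∈ Om P0 := mem_Om_of_im hp hx
  have hb := hXO p hp
  have hD : (H828.th (d p), x) ∈ Dm ∅ := by
    refine ⟨by simp, by simp, fun l _ _ => ?_⟩
    exact (th_im (norm_d h hp) l).trans hx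
  have hlg' : ∀ l, IsLg (ct l) (fun x => lg (x - ct l)) x := by
    intro l
    have h1 : 0 < (x - ct l).im := by
      simp only [sub_im, ct_im, sub_zero]
      linarith
    refine ⟨?_, (hlg _ h1).2⟩
    exact (hlg _ h1).1.comp_sub_const x (ct l)
  have hnx : ∀ᶠ z : ℂ in 𝓝 x, 1 < z.im := (isOpen_lt continuous_const continuous_im).mem_nhds hx
  -- the square root
  have hs : Qp.s ∅ (H828.th (d p), x) = yc (sqd d p) x := by
    have h1 : HasDerivAt (fun z : ℂ => (Qp.P ∅ (H828.th (d p), z)).1)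
        (1 / Qp.s ∅ (H828.th (d p), x)) x := (Qp.P_x ∅ _ hD hb).fst
    have h2 : HasDerivAt (fun z : ℂ => ∑ l, cm ct (sqd d p) 0 l * lg (z - ct l) +
        MM ct (sqd d p) 0 z) (∑ l, cm ct (sqd d p) 0 l * (x - ct l)⁻¹ +
          (ph ct (sqd d p) 0 x - ∑ k, (x - ct k)⁻¹ * cm ct (sqd d p) 0 k)) x :=
      (HasDerivAt.fun_sum fun l _ => (hlg' l).der.const_mul _).add
        (hasDerivAt_MM sep_ct (h.sm _ hp) (by norm_num) hm.2)
    have h3 : HasDerivAt (fun z : ℂ => (Qp.P ∅ (H828.th (d p), z)).1)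
        (∑ l, cm ct (sqd d p) 0 l * (x - ct l)⁻¹ +
          (ph ct (sqd d p) 0 x - ∑ k, (x - ct k)⁻¹ * cm ct (sqd d p) 0 k)) x := by
      refine h2.congr_of_eventuallyEq ?_
      filter_upwards [hnx] with z hz
      rw [hP p hp z hz]
    have h4 := h1.unique h3
    have h5 : ∑ l, cm ct (sqd d p) 0 l * (x - ct l)⁻¹ +
        (ph ct (sqd d p) 0 x - ∑ k, (x - ct k)⁻¹ * cm ct (sqd d p) 0 k) =
        (yc (sqd d p) x)⁻¹ := by
      rw [Finset.sum_congr rfl fun l _ => mul_comm (cm ct (sqd d p) 0 l) ((x - ct l)⁻¹)]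
      unfold ph
      rw [ph0_eq]
      ring
    rw [h5, one_div] at h4
    exact inv_injective h4
  -- the potential
  have hG : (fun q : Q × ℂ => Gf Qp A c ∅ (mm d q)) =ᶠ[𝓝 (p, x)]
      UU d a cR β C fun l x => lg (x - ct l) := by
    have h1 : ∀ᶠ q : Q × ℂ in 𝓝 (p, x), q.1 ∈ P0 :=
      continuousAt_fst.eventually_mem (h.op.mem_nhds hp)
    have h2 : ∀ᶠ q : Q × ℂ in 𝓝 (p, x), 1 < q.2.im :=
      (isOpen_lt continuous_const (continuous_im.comp continuous_snd)).mem_nhds hx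
    filter_upwards [h1, h2] with q h3 h4
    have h5 : Gf Qp A c ∅ (mm d q) = A (H828.th (d q.1)) (Qp.P ∅ (H828.th (d q.1), q.2)) +
        c (H828.th (d q.1)) := rfl
    rw [h5, hP _ h3 _ h4, h.hA _ h3, ← hC _ h3, add_comm]
    unfold UU
    congr 2
    have h6 : ∑ l, ((cR q.1 l : ℂ) + ((β l / Real.pi : ℝ) : ℂ) * I) * lg (q.2 - ct l) =
        ∑ l, (a q.1 0 * cm ct (sqd d q.1) 0 l + a q.1 1 * cm ct (sqd d q.1) 1 l) *
          lg (q.2 - ct l) := Finset.sum_congr rfl fun l _ => by rw [h.res _ h3 l]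
    rw [h6]
    simp only [Fin.sum_univ_three]
    ring
  have hd : DifferentiableAt ℝ (Gf Qp A c ∅) (mm d (p, x)) := hFl.diffG hD hb
  have hmm : DifferentiableAt ℝ (mm d) (p, x) :=
    (contDiffAt_mm (h.sd _ hp)).differentiableAt (by norm_num)
  have h1 : HasFDerivAt (fun q : Q × ℂ => Gf Qp A c ∅ (mm d q))
      ((fderiv ℝ (Gf Qp A c ∅) (mm d (p, x))).comp (fderiv ℝ (mm d) (p, x))) (p, x) :=
    hd.hasFDerivAt.comp (p, x) hmm.hasFDerivAt
  have h2 := (hasFDerivAt_UU h hm hlg').congr_of_eventuallyEq hG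
  have h3 := h1.unique h2
  have h4 : es (eta Qp A c) d (p, x) =
      (fderiv ℝ (Gf Qp A c ∅) (mm d (p, x))).comp (fderiv ℝ (mm d) (p, x)) := by
    unfold es
    have h5 : eta Qp A c (mm d (p, x)).1 (mm d (p, x)).2 (yc (sqd d p) x) =
        fderiv ℝ (Gf Qp A c ∅) (mm d (p, x)) := by
      have h6 := hFl.eta_eq hb hD (yc (sqd d p) x)
      rw [hs, div_self (yc_ne (h.sm _ hp) hm.2), one_re, one_smul] at h6
      exact h6
    rw [h5]
  unfold om
  rw [h4, h3]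
  abel

end PotIn

end Vale.Agent.P273.H722
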