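import Mathlib

/-!
P273, LIM-G (U): vertical propagation for closed 1-forms.

`Q` = base, `F` = fibre (real normed spaces).  A closed 1-form `ω` on an open set of `Q × F` whose
fibre component is `0` has a base component which is constant along the fibres.
-/

noncomputable section

namespace Vale.Agent.P273.H722

open Set Filter Topology

variable {Q F : Type*} [NormedAddCommGroup Q] [NormedSpace ℝ Q] [NormedAddCommGroup F]
  [NormedSpace ℝ F]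

/-- A function on `[0, 1)` with zero derivative, and limit `0` at `1`, is zero at `0`. -/
theorem zero_of_deriv_zero {f : ℝ → ℝ} (hf : ∀ t ∈ Ico (0 : ℝ) 1, HasDerivAt f 0 t)
    (h1 : Tendsto f (𝓝[<] 1) (𝓝 0)) : f 0 = 0 := by
  have h2 : ∀ t ∈ Ico (0 : ℝ) 1, f t = f 0 := by
    intro t ht
    have h3 : ∀ s ∈ Icc (0 : ℝ) t, HasDerivWithinAt f 0 (Icc 0 t) s := fun s hs =>
      (hf s ⟨hs.1, hs.2.trans_lt ht.2⟩).hasDerivWithinAt
    exact constant_of_has_deriv_right_zero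
      (fun s hs => (h3 s hs).continuousWithinAt)
      (fun s hs => (hf s ⟨hs.1, hs.2.trans ht.2⟩).hasDerivWithinAt) t ⟨ht.1, le_rfl⟩
  have h3 : Tendsto f (𝓝[<] 1) (𝓝 (f 0)) := by
    refine tendsto_const_nhds.congr' ?_
    have h4 : Ico (0 : ℝ) 1 ∈ 𝓝[<] (1 : ℝ) := Ico_mem_nhdsLT (by norm_num)
    filter_upwards [h4] with t ht
    exact (h2 t ht).symm
  exact tendsto_nhds_unique h3 h1

/-- The base component of a closed form with zero fibre component has zero derivative along the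
fibre. -/
theorem hasDerivAt_base {ω : Q × F → (Q × F →L[ℝ] ℝ)} {Ω : Set (Q × F)} (hΩ : IsOpen Ω)
    (hd : ∀ p ∈ Ω, DifferentiableAt ℝ ω p)
    (hs : ∀ p ∈ Ω, ∀ u v, fderiv ℝ ω p u v = fderiv ℝ ω p v u)
    (hv : ∀ p ∈ Ω, ∀ c : F, ω p (0, c) = 0) {q : Q} {z : ℝ → F} {δ : F} {t : ℝ}
    (hz : HasDerivAt z δ t) (hp : (q, z t) ∈ Ω) (v : Q) :
    HasDerivAt (fun t => ω (q, z t) (v, 0)) 0 t := by
  have h1 : HasDerivAt (fun t => (q, z t)) ((0 : Q), δ) t :=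
    (hasDerivAt_const t q).prodMk hz
  have h2 : HasDerivAt (fun t => ω (q, z t)) (fderiv ℝ ω (q, z t) (0, δ)) t :=
    (hd _ hp).hasFDerivAt.comp_hasDerivAt t h1
  have h3 : HasDerivAt (fun t => ω (q, z t) (v, 0)) (fderiv ℝ ω (q, z t) (0, δ) (v, 0)) t := by
    have := h2.clm_apply (hasDerivAt_const t ((v, 0) : Q × F))
    simpa using this
  have h4 : fderiv ℝ ω (q, z t) (0, δ) (v, 0) = 0 := by
    rw [hs _ hp]
    have h5 : (fun p => ω p (0, δ)) =ᶠ[𝓝 (q, z t)] fun _ => (0 : ℝ) := by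
      filter_upwards [hΩ.mem_nhds hp] with p hp
      exact hv p hp δ
    have h6 : HasFDerivAt (fun p => ω p (0, δ))
        ((fderiv ℝ ω (q, z t)).flip (0, δ)) (q, z t) := by
      have := (hd _ hp).hasFDerivAt.clm_apply (hasFDerivAt_const ((0, δ) : Q × F) (q, z t))
      simpa using this
    have h7 := h6.unique ((hasFDerivAt_const (0 : ℝ) (q, z t)).congr_of_eventuallyEq h5)
    have h8 := congrArg (fun L : Q × F →L[ℝ] ℝ => L (v, 0)) h7
    simpa using h8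
  rw [h4] at h3
  exact h3

/-- **Vertical propagation.** -/
theorem vert {ω : Q × F → (Q × F →L[ℝ] ℝ)} {Ω : Set (Q × F)} (hΩ : IsOpen Ω)
    (hd : ∀ p ∈ Ω, DifferentiableAt ℝ ω p)
    (hs : ∀ p ∈ Ω, ∀ u v, fderiv ℝ ω p u v = fderiv ℝ ω p v u)
    (hv : ∀ p ∈ Ω, ∀ c : F, ω p (0, c) = 0) {q : Q} {z : ℝ → F} {z' : ℝ → F}
    (hz : ∀ t ∈ Ico (0 : ℝ) 1, HasDerivAt z (z' t) t)
    (hp : ∀ t ∈ Ico (0 : ℝ) 1, (q, z t) ∈ Ω)
    (hl : ∀ v : Q, ∃ c : F, Tendsto (fun t => ω (q, z t) (v, c)) (𝓝[<] 1) (𝓝 0)) :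
    ω (q, z 0) = 0 := by
  have h0 : ∀ p ∈ Ω, ∀ v : Q, ∀ c : F, ω p (v, c) = ω p (v, 0) := by
    intro p hp v c
    have h1 : ((v, c) : Q × F) = (v, 0) + (0, c) := by simp
    rw [h1, map_add, hv p hp, add_zero]
  have h1 : ∀ v : Q, ω (q, z 0) (v, 0) = 0 := by
    intro v
    obtain ⟨c, hc⟩ := hl v
    refine zero_of_deriv_zero (f := fun t => ω (q, z t) (v, 0))
      (fun t ht => hasDerivAt_base hΩ hd hs hv (hz t ht) (hp t ht) v) ?_
    refine hc.congr' ?_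
    have h4 : Ico (0 : ℝ) 1 ∈ 𝓝[<] (1 : ℝ) := Ico_mem_nhdsLT (by norm_num)
    filter_upwards [h4] with t ht
    exact h0 _ (hp t ht) v c
  refine ContinuousLinearMap.ext fun w => ?_
  have h2 := h0 _ (hp 0 ⟨le_rfl, by norm_num⟩) w.1 w.2
  rw [Prod.mk.eta] at h2
  rw [h2, h1]
  rfl

/-- The derivative of a `C^2` function is differentiable, with symmetric derivative. -/
theorem fderiv_facts {E : Type*} [NormedAddCommGroup E] [NormedSpace ℝ E] {U : E → ℝ} {p : E}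
    (h : ContDiffAt ℝ 2 U p) :
    DifferentiableAt ℝ (fderiv ℝ U) p ∧
      ∀ u v, fderiv ℝ (fderiv ℝ U) p u v = fderiv ℝ (fderiv ℝ U) p v u := by
  refine ⟨?_, fun u v => ?_⟩
  · exact (h.fderiv_right (m := 1) (by norm_num)).differentiableAt (by norm_num)
  · exact (h.isSymmSndFDerivAt (by simp)) u v

/-- **Vertical propagation, comparison of a closed form with the derivative of a function.** -/
theorem vert_eq {ω : Q × F → (Q × F →L[ℝ] ℝ)} {U : Q × F → ℝ} {Ω : Set (Q × F)} (hΩ : IsOpen Ω)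
    (hd : ∀ p ∈ Ω, DifferentiableAt ℝ ω p)
    (hs : ∀ p ∈ Ω, ∀ u v, fderiv ℝ ω p u v = fderiv ℝ ω p v u)
    (hU : ∀ p ∈ Ω, ContDiffAt ℝ 2 U p)
    (hv : ∀ p ∈ Ω, ∀ c : F, ω p (0, c) = fderiv ℝ U p (0, c)) {q : Q} {z : ℝ → F} {z' : ℝ → F}
    (hz : ∀ t ∈ Ico (0 : ℝ) 1, HasDerivAt z (z' t) t)
    (hp : ∀ t ∈ Ico (0 : ℝ) 1, (q, z t) ∈ Ω)
    (hl : ∀ v : Q, ∃ c : F, Tendsto (fun t => ω (q, z t) (v, c) - fderiv ℝ U (q, z t) (v, c))
      (𝓝[<] 1) (𝓝 0)) :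
    ω (q, z 0) = fderiv ℝ U (q, z 0) := by
  have h1 := vert (ω := fun p => ω p - fderiv ℝ U p) hΩ
    (fun p hp => (hd p hp).sub (fderiv_facts (hU p hp)).1) ?_ ?_ hz hp ?_
  · exact sub_eq_zero.1 h1
  · intro p hp u v
    have h2 : fderiv ℝ (fun p => ω p - fderiv ℝ U p) p =
        fderiv ℝ ω p - fderiv ℝ (fderiv ℝ U) p :=
      fderiv_sub (hd p hp) (fderiv_facts (hU p hp)).1
    rw [h2]
    show fderiv ℝ ω p u v - fderiv ℝ (fderiv ℝ U) p u v =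
      fderiv ℝ ω p v u - fderiv ℝ (fderiv ℝ U) p v u
    rw [hs p hp, (fderiv_facts (hU p hp)).2]
  · intro p hp c
    show ω p (0, c) - fderiv ℝ U p (0, c) = 0
    rw [hv p hp, sub_self]
  · intro v
    obtain ⟨c, hc⟩ := hl v
    exact ⟨c, hc⟩

/-- The same, from a known point of the fibre. -/
theorem vert_of_eq {ω : Q × F → (Q × F →L[ℝ] ℝ)} {U : Q × F → ℝ} {Ω : Set (Q × F)}
    (hΩ : IsOpen Ω) (hd : ∀ p ∈ Ω, DifferentiableAt ℝ ω p)
    (hs : ∀ p ∈ Ω, ∀ u v, fderiv ℝ ω p u v = fderiv ℝ ω p v u)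
    (hU : ∀ p ∈ Ω, ContDiffAt ℝ 2 U p)
    (hv : ∀ p ∈ Ω, ∀ c : F, ω p (0, c) = fderiv ℝ U p (0, c)) {q : Q} {z₀ z₁ : F}
    (hp : ∀ t ∈ Icc (0 : ℝ) 1, (q, z₀ + t • (z₁ - z₀)) ∈ Ω)
    (h1 : ω (q, z₁) = fderiv ℝ U (q, z₁)) : ω (q, z₀) = fderiv ℝ U (q, z₀) := by
  have hz : ∀ t : ℝ, HasDerivAt (fun t : ℝ => z₀ + t • (z₁ - z₀)) (z₁ - z₀) t := by
    intro t
    have h2 := ((hasDerivAt_id t).smul_const (z₁ - z₀)).const_add z₀
    simpa using h2
  have he : z₀ + (1 : ℝ) • (z₁ - z₀) = z₁ := by rw [one_smul]; abel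
  have h3 := vert_eq (q := q) (z := fun t : ℝ => z₀ + t • (z₁ - z₀)) (z' := fun _ => z₁ - z₀)
    hΩ hd hs hU hv (fun t _ => hz t) (fun t ht => hp t ⟨ht.1, ht.2.le⟩) fun v => ⟨0, ?_⟩
  · simpa using h3
  · have hp1 : (q, z₁) ∈ Ω := by
      have := hp 1 ⟨by norm_num, le_rfl⟩
      rwa [he] at this
    have h4 : ContinuousAt (fun p : Q × F => ω p (v, 0) - fderiv ℝ U p (v, 0)) (q, z₁) := by
      have a1 : ContinuousAt (fun p : Q × F => ω p (v, 0)) (q, z₁) :=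
        (hd _ hp1).continuousAt.clm_apply continuousAt_const
      have a2 : ContinuousAt (fun p : Q × F => fderiv ℝ U p (v, 0)) (q, z₁) :=
        (fderiv_facts (hU _ hp1)).1.continuousAt.clm_apply continuousAt_const
      exact a1.sub a2
    have h5 : Tendsto (fun t : ℝ => (q, z₀ + t • (z₁ - z₀))) (𝓝[<] 1) (𝓝 (q, z₁)) := by
      have h6 : ContinuousAt (fun t : ℝ => (q, z₀ + t • (z₁ - z₀))) 1 :=
        continuousAt_const.prodMk (hz 1).continuousAt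
      have h7 := h6.tendsto
      simp only [he] at h7
      exact h7.mono_left nhdsWithin_le_nhds
    have h8 := h4.tendsto.comp h5
    have h9 : ω (q, z₁) (v, 0) - fderiv ℝ U (q, z₁) (v, 0) = 0 := by rw [h1, sub_self]
    rw [h9] at h8
    exact h8

end Vale.Agent.P273.H722
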