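import Vale.Agent.P273.H722.Sys

/-!
P273, row POT-ASY [B], part 2: the slopes `x k` and the core value `C` of the harmonic gauge near a
totally degenerate point, as functions of `(y, al)`, `eps k = exp (-(y k) + al k * I)`.

Input: the matching constants `kap : (ι → ℂ) → ((ι → ℂ) →L[ℂ] (ι → ℂ))` (functions of `eps`).
The system is
  `-(y k / 2) * x k + Re (kap eps (x)) k + C = ξ k + β k * al k / (2 π) - Re (kap eps (I β / π)) k`,
  `∑ x k = 0`.
-/

noncomputable section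

namespace Vale.Agent.P273.H722

open Finset Complex

variable {ι : Type} [Fintype ι]

/-! ### Real parts of complex linear maps -/

/-- Componentwise `ofReal`. -/
def toC : (ι → ℝ) →L[ℝ] (ι → ℂ) :=
  ContinuousLinearMap.pi fun k => Complex.ofRealCLM.comp
    (ContinuousLinearMap.proj (R := ℝ) (φ := fun _ : ι => ℝ) k)

/-- Componentwise real part. -/
def reC : (ι → ℂ) →L[ℝ] (ι → ℝ) :=
  ContinuousLinearMap.pi fun k => Complex.reCLM.comp
    (ContinuousLinearMap.proj (R := ℝ) (φ := fun _ : ι => ℂ) k)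

omit [Fintype ι] in
@[simp] theorem toC_apply (x : ι → ℝ) (k : ι) : toC x k = (x k : ℂ) := rfl

omit [Fintype ι] in
@[simp] theorem reC_apply (x : ι → ℂ) (k : ι) : reC x k = (x k).re := rfl

theorem norm_toC_le (x : ι → ℝ) : ‖toC x‖ ≤ ‖x‖ :=
  (pi_norm_le_iff_of_nonneg (norm_nonneg _)).2 fun k => by
    rw [toC_apply, Complex.norm_real]; exact norm_le_pi_norm x k

theorem norm_reC_le (x : ι → ℂ) : ‖reC x‖ ≤ ‖x‖ :=
  (pi_norm_le_iff_of_nonneg (norm_nonneg _)).2 fun k => by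
    rw [reC_apply, Real.norm_eq_abs]
    exact (Complex.abs_re_le_norm _).trans (norm_le_pi_norm x k)

/-- The real part of a complex linear map. -/
def RK : ((ι → ℂ) →L[ℂ] (ι → ℂ)) →L[ℝ] ((ι → ℝ) →L[ℝ] (ι → ℝ)) :=
  LinearMap.mkContinuous
    { toFun := fun T => reC.comp ((T.restrictScalars ℝ).comp toC)
      map_add' := fun S T => by ext x k; simp
      map_smul' := fun c T => by ext x k; simp } 1 fun T => by
    rw [one_mul]
    refine ContinuousLinearMap.opNorm_le_bound _ (norm_nonneg _) fun x => ?_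
    refine (norm_reC_le _).trans ((T.le_opNorm _).trans ?_)
    exact mul_le_mul_of_nonneg_left (norm_toC_le x) (norm_nonneg _)

theorem RK_apply (T : (ι → ℂ) →L[ℂ] (ι → ℂ)) (x : ι → ℝ) (k : ι) :
    RK T x k = (T (fun l => (x l : ℂ)) k).re := rfl

theorem norm_RK_le (T : (ι → ℂ) →L[ℂ] (ι → ℂ)) : ‖RK T‖ ≤ ‖T‖ := by
  refine ContinuousLinearMap.opNorm_le_bound _ (norm_nonneg _) fun x => ?_
  refine (norm_reC_le _).trans ((T.le_opNorm _).trans ?_)
  exact mul_le_mul_of_nonneg_left (norm_toC_le x) (norm_nonneg _)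

/-- The vector `I β / π`. -/
def ib (β : ι → ℝ) : ι → ℂ := fun l => I * (β l : ℂ) / (Real.pi : ℂ)

theorem norm_ib_le (β : ι → ℝ) : ‖ib β‖ ≤ ‖β‖ := by
  refine (pi_norm_le_iff_of_nonneg (norm_nonneg _)).2 fun k => ?_
  unfold ib
  rw [norm_div, norm_mul, Complex.norm_I, one_mul, Complex.norm_real, Complex.norm_real,
    Real.norm_eq_abs Real.pi, abs_of_pos Real.pi_pos]
  refine (div_le_self (norm_nonneg _) ?_).trans (norm_le_pi_norm β k)
  linarith [Real.pi_gt_three]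

/-- The map `T ↦ Re (T (I β / π))`. -/
def RG (β : ι → ℝ) : ((ι → ℂ) →L[ℂ] (ι → ℂ)) →L[ℝ] (ι → ℝ) :=
  LinearMap.mkContinuous
    { toFun := fun T => reC (T (ib β))
      map_add' := fun S T => by ext k; simp
      map_smul' := fun c T => by ext k; simp } ‖β‖ fun T => by
    refine (norm_reC_le _).trans ((T.le_opNorm _).trans ?_)
    rw [mul_comm ‖β‖]
    exact mul_le_mul_of_nonneg_left (norm_ib_le β) (norm_nonneg _)

theorem RG_apply (β : ι → ℝ) (T : (ι → ℂ) →L[ℂ] (ι → ℂ)) (k : ι) :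
    RG β T k = (T (ib β) k).re := rfl

theorem norm_RG_le (β : ι → ℝ) (T : (ι → ℂ) →L[ℂ] (ι → ℂ)) : ‖RG β T‖ ≤ ‖β‖ * ‖T‖ := by
  refine (norm_reC_le _).trans ((T.le_opNorm _).trans ?_)
  rw [mul_comm ‖β‖]
  exact mul_le_mul_of_nonneg_left (norm_ib_le β) (norm_nonneg _)

/-! ### The parameters -/

/-- The space of the parameters `(y, al)`. -/
abbrev Pa (ι : Type) := (ι → ℝ) × (ι → ℝ)

/-- `eps k = exp (-(y k) + al k * I)`. -/
def ep (p : Pa ι) : ι → ℂ := fun k => Complex.exp (-(p.1 k : ℂ) + (p.2 k : ℂ) * I)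

omit [Fintype ι] in
theorem norm_ep_apply (p : Pa ι) (k : ι) : ‖ep p k‖ = Real.exp (-(p.1 k)) := by
  unfold ep
  rw [Complex.norm_exp]
  simp

/-- The derivative of `ep`. -/
def dep (p : Pa ι) : Pa ι →L[ℝ] (ι → ℂ) :=
  ContinuousLinearMap.pi fun k =>
    (ep p k) • ((-(Complex.ofRealCLM.comp ((ContinuousLinearMap.proj (R := ℝ)
      (φ := fun _ : ι => ℝ) k).comp (ContinuousLinearMap.fst ℝ (ι → ℝ) (ι → ℝ))))) +
      (Complex.I • (Complex.ofRealCLM.comp ((ContinuousLinearMap.proj (R := ℝ)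
      (φ := fun _ : ι => ℝ) k).comp (ContinuousLinearMap.snd ℝ (ι → ℝ) (ι → ℝ))))))

omit [Fintype ι] in
theorem dep_apply (p v : Pa ι) (k : ι) :
    dep p v k = ep p k * (-(v.1 k : ℂ) + I * (v.2 k : ℂ)) := by
  unfold dep
  simp
  ring

theorem hasFDerivAt_ep (p : Pa ι) : HasFDerivAt ep (dep p) p := by
  refine hasFDerivAt_pi.2 fun k => ?_
  have h1 : HasFDerivAt (fun p : Pa ι => -(p.1 k : ℂ) + (p.2 k : ℂ) * I)
      ((-(Complex.ofRealCLM.comp ((ContinuousLinearMap.proj (R := ℝ)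
      (φ := fun _ : ι => ℝ) k).comp (ContinuousLinearMap.fst ℝ (ι → ℝ) (ι → ℝ))))) +
      (Complex.I • (Complex.ofRealCLM.comp ((ContinuousLinearMap.proj (R := ℝ)
      (φ := fun _ : ι => ℝ) k).comp (ContinuousLinearMap.snd ℝ (ι → ℝ) (ι → ℝ)))))) p := by
    have h2 := ((-(Complex.ofRealCLM.comp ((ContinuousLinearMap.proj (R := ℝ)
      (φ := fun _ : ι => ℝ) k).comp (ContinuousLinearMap.fst ℝ (ι → ℝ) (ι → ℝ))))) +
      (Complex.I • (Complex.ofRealCLM.comp ((ContinuousLinearMap.proj (R := ℝ)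
      (φ := fun _ : ι => ℝ) k).comp (ContinuousLinearMap.snd ℝ (ι → ℝ) (ι → ℝ)))))).hasFDerivAt
        (x := p)
    refine h2.congr_of_eventuallyEq (Filter.Eventually.of_forall fun q => ?_)
    simp [mul_comm]
  exact h1.cexp

theorem contDiff_ep {n : WithTop ℕ∞} : ContDiff ℝ n (ep : Pa ι → ι → ℂ) := by
  refine contDiff_pi.2 fun k => ?_
  have h1 : ContDiff ℝ n (fun p : Pa ι => -(p.1 k : ℂ) + (p.2 k : ℂ) * I) := by
    refine ContDiff.add (ContDiff.neg ?_) (ContDiff.mul ?_ contDiff_const)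
    · exact Complex.ofRealCLM.contDiff.comp ((ContinuousLinearMap.proj (R := ℝ)
        (φ := fun _ : ι => ℝ) k).contDiff.comp contDiff_fst)
    · exact Complex.ofRealCLM.contDiff.comp ((ContinuousLinearMap.proj (R := ℝ)
        (φ := fun _ : ι => ℝ) k).contDiff.comp contDiff_snd)
  exact h1.cexp

/-- The direction `∂/∂y l`. -/
def ey [DecidableEq ι] (l : ι) : Pa ι := (Pi.single l 1, 0)

/-- The direction `∂/∂al l`. -/
def ea [DecidableEq ι] (l : ι) : Pa ι := (0, Pi.single l 1)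

section

variable [DecidableEq ι]

theorem norm_dep_ey (p : Pa ι) (l : ι) : ‖dep p (ey l)‖ ≤ Real.exp (-(p.1 l)) := by
  refine (pi_norm_le_iff_of_nonneg (Real.exp_pos _).le).2 fun k => ?_
  rw [dep_apply, norm_mul, norm_ep_apply]
  by_cases hk : k = l
  · subst hk; simp [ey]
  · simp [ey, hk, Real.exp_nonneg]

theorem norm_dep_ea (p : Pa ι) (l : ι) : ‖dep p (ea l)‖ ≤ Real.exp (-(p.1 l)) := by
  refine (pi_norm_le_iff_of_nonneg (Real.exp_pos _).le).2 fun k => ?_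
  rw [dep_apply, norm_mul, norm_ep_apply]
  by_cases hk : k = l
  · subst hk; simp [ea]
  · simp [ea, hk, Real.exp_nonneg]

end

/-! ### The data -/

/-- The matching constants, smooth near `0`, with bounds. -/
structure KapData (ι : Type) [Fintype ι] where
  /-- The matching constants. -/
  kap : (ι → ℂ) → ((ι → ℂ) →L[ℂ] (ι → ℂ))
  /-- The radius. -/
  ρ : ℝ
  /-- The bound. -/
  κ : ℝ
  ρ_pos : 0 < ρ
  κ_one : 1 ≤ κ
  smooth : ∀ e, ‖e‖ < ρ → ContDiffAt ℝ ((⊤ : ℕ∞) : WithTop ℕ∞) kap e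
  bound : ∀ e, ‖e‖ < ρ → ‖kap e‖ ≤ κ
  dbound : ∀ e, ‖e‖ < ρ → ‖fderiv ℝ kap e‖ ≤ κ

namespace KapData

variable (D : KapData ι)

/-- `2 M`. -/
def MM (p : Pa ι) : ι → ℝ := fun k => p.1 k / 2

/-- The bounded part of the matrix. -/
def KK (p : Pa ι) : (ι → ℝ) →L[ℝ] (ι → ℝ) := RK (D.kap (ep p))

/-- The right hand side. -/
def gg (ξ β : ι → ℝ) (p : Pa ι) : ι → ℝ := fun k =>
  ξ k + β k * p.2 k / (2 * Real.pi) - RG β (D.kap (ep p)) k

/-- The solution. -/
def ss (ξ β : ι → ℝ) (p : Pa ι) : (ι → ℝ) × ℝ := sol (MM p) (D.KK p) (D.gg ξ β p)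

/-- The slopes. -/
def xx (ξ β : ι → ℝ) (p : Pa ι) : ι → ℝ := (D.ss ξ β p).1

/-- The value on the core. -/
def CC (ξ β : ι → ℝ) (p : Pa ι) : ℝ := (D.ss ξ β p).2

/-- The weighted slopes `w k = y k * x k / 2`. -/
def wf (ξ β : ι → ℝ) (p : Pa ι) : ι → ℝ := fun k => p.1 k / 2 * D.xx ξ β p k

/-- The region: `m` is the smallest of the `y k`, and large. -/
structure Big (m : ℝ) (p : Pa ι) : Prop where
  le : ∀ k, m ≤ p.1 k
  ex : ∃ l, p.1 l ≤ m
  kap : 8 * D.κ < m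
  ep_lt : ‖ep p‖ < D.ρ

variable {D} {m : ℝ} {p : Pa ι} {ξ β : ι → ℝ}

theorem Big.pos (h : D.Big m p) : 8 ≤ m := by
  have := h.kap; have := D.κ_one; linarith

theorem norm_ep_le (h : ∀ k, m ≤ p.1 k) : ‖ep p‖ ≤ Real.exp (-m) := by
  refine (pi_norm_le_iff_of_nonneg (Real.exp_pos _).le).2 fun k => ?_
  rw [norm_ep_apply]
  exact Real.exp_le_exp.2 (neg_le_neg (h k))

theorem Big.hM (h : D.Big m p) (k : ι) : m / 2 ≤ MM p k :=
  div_le_div_of_nonneg_right (h.le k) zero_le_two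

theorem Big.hm (h : D.Big m p) : ∃ l, MM p l ≤ m / 2 := by
  obtain ⟨l, hl⟩ := h.ex
  exact ⟨l, div_le_div_of_nonneg_right hl zero_le_two⟩

theorem Big.hm0 (h : D.Big m p) : 0 < m / 2 := by have := h.pos; linarith

theorem Big.hK (h : D.Big m p) : ‖D.KK p‖ ≤ D.κ := (norm_RK_le _).trans (D.bound _ h.ep_lt)

theorem Big.hmκ (h : D.Big m p) : 4 * D.κ ≤ m / 2 := by have := h.kap; linarith

theorem Big.M_pos (h : D.Big m p) (k : ι) : 0 < MM p k := h.hm0.trans_le (h.hM k)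

variable [Nonempty ι]

theorem isSol (h : D.Big m p) (ξ β : ι → ℝ) :
    IsSol (MM p) (D.KK p) (D.gg ξ β p) (D.xx ξ β p) (D.CC ξ β p) :=
  sol_isSol h.hM h.hm h.hm0 h.hK h.hmκ _

omit [Nonempty ι] in
theorem contDiff_MM {n : WithTop ℕ∞} : ContDiff ℝ n (MM : Pa ι → ι → ℝ) := by
  refine contDiff_pi.2 fun k => ?_
  exact ((ContinuousLinearMap.proj (R := ℝ) (φ := fun _ : ι => ℝ) k).contDiff.comp
    contDiff_fst).div_const 2

omit [Nonempty ι] in
theorem contDiffAt_kap (h : ‖ep p‖ < D.ρ) :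
    ContDiffAt ℝ ((⊤ : ℕ∞) : WithTop ℕ∞) (fun q : Pa ι => D.kap (ep q)) p :=
  (D.smooth _ h).comp p contDiff_ep.contDiffAt

theorem contDiffAt_ss (h : D.Big m p) (ξ β : ι → ℝ) :
    ContDiffAt ℝ ((⊤ : ℕ∞) : WithTop ℕ∞) (D.ss ξ β) p := by
  refine contDiffAt_sol contDiff_MM.contDiffAt ?_ ?_ h.hM h.hm h.hm0 h.hK h.hmκ
  · exact RK.contDiff.contDiffAt.comp p (contDiffAt_kap h.ep_lt)
  · refine contDiffAt_pi.2 fun k => ?_
    refine ContDiffAt.sub ?_ ?_
    · refine contDiffAt_const.add ?_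
      refine ContDiffAt.div_const (contDiffAt_const.mul ?_) _
      exact ((ContinuousLinearMap.proj (R := ℝ) (φ := fun _ : ι => ℝ) k).contDiff.comp
        contDiff_snd).contDiffAt
    · exact ((ContinuousLinearMap.proj (R := ℝ) (φ := fun _ : ι => ℝ) k).comp
        (RG β)).contDiff.contDiffAt.comp p (contDiffAt_kap h.ep_lt)

theorem eventually_big (h : D.Big m p) : ∀ᶠ q in nhds p, ∃ m', D.Big m' q := by
  have h1 : ∀ᶠ q : Pa ι in nhds p, ∀ k, 8 * D.κ < q.1 k := by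
    refine Filter.eventually_all.2 fun k => ?_
    have hc : Continuous fun q : Pa ι => q.1 k := (continuous_apply k).comp continuous_fst
    exact hc.continuousAt.eventually (lt_mem_nhds (h.kap.trans_le (h.le k)))
  have h2 : ∀ᶠ q : Pa ι in nhds p, ‖ep q‖ < D.ρ :=
    (contDiff_ep (n := 0)).continuous.norm.continuousAt.eventually (gt_mem_nhds h.ep_lt)
  filter_upwards [h1, h2] with q hq1 hq2
  obtain ⟨l, hl⟩ := Finite.exists_min q.1
  exact ⟨q.1 l, hl, ⟨l, le_rfl⟩, hq1 l, hq2⟩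

/-- The derivative of `kap (ep p)`. -/
def kk (D : KapData ι) (p : Pa ι) : Pa ι →L[ℝ] ((ι → ℂ) →L[ℂ] (ι → ℂ)) :=
  (fderiv ℝ D.kap (ep p)).comp (dep p)

omit [Nonempty ι] in
theorem hasFDerivAt_kap (h : D.Big m p) :
    HasFDerivAt (fun q : Pa ι => D.kap (ep q)) (D.kk p) p :=
  (((D.smooth _ h.ep_lt).differentiableAt (by simp)).hasFDerivAt).comp p (hasFDerivAt_ep p)

omit [Nonempty ι] in
theorem norm_kk_le (h : D.Big m p) (v : Pa ι) : ‖D.kk p v‖ ≤ D.κ * ‖dep p v‖ :=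
  ((fderiv ℝ D.kap (ep p)).le_opNorm (dep p v)).trans
    (mul_le_mul_of_nonneg_right (D.dbound _ h.ep_lt) (norm_nonneg _))

/-- The right hand side of the derivative system. -/
def hh (D : KapData ι) (ξ β : ι → ℝ) (p v : Pa ι) : ι → ℝ := fun k =>
  β k * v.2 k / (2 * Real.pi) - RG β (D.kk p v) k + v.1 k / 2 * D.xx ξ β p k -
    RK (D.kk p v) (D.xx ξ β p) k

theorem hasFDerivAt_xx (h : D.Big m p) (ξ β : ι → ℝ) :
    HasFDerivAt (D.xx ξ β) (fderiv ℝ (D.xx ξ β) p) p :=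
  ((contDiffAt_ss h ξ β).differentiableAt (by simp)).fst.hasFDerivAt

theorem hasFDerivAt_CC (h : D.Big m p) (ξ β : ι → ℝ) :
    HasFDerivAt (D.CC ξ β) (fderiv ℝ (D.CC ξ β) p) p :=
  ((contDiffAt_ss h ξ β).differentiableAt (by simp)).snd.hasFDerivAt

omit [Nonempty ι] in
theorem hasFDerivAt_gg (h : D.Big m p) (ξ β : ι → ℝ) :
    HasFDerivAt (D.gg ξ β) ((ContinuousLinearMap.pi fun k =>
      (β k / (2 * Real.pi)) • ((ContinuousLinearMap.proj (R := ℝ) (φ := fun _ : ι => ℝ) k).comp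
        (ContinuousLinearMap.snd ℝ (ι → ℝ) (ι → ℝ)))) - (RG β).comp (D.kk p)) p := by
  refine HasFDerivAt.sub ?_ ((RG β).hasFDerivAt.comp p (hasFDerivAt_kap h))
  refine hasFDerivAt_pi.2 fun k => ?_
  have h1 := ((β k / (2 * Real.pi)) • ((ContinuousLinearMap.proj (R := ℝ)
    (φ := fun _ : ι => ℝ) k).comp (ContinuousLinearMap.snd ℝ (ι → ℝ) (ι → ℝ)))).hasFDerivAt
      (x := p)
  refine (h1.const_add (ξ k)).congr_of_eventuallyEq (Filter.Eventually.of_forall fun q => ?_)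
  simp only [smul_apply, ContinuousLinearMap.comp_apply,
    ContinuousLinearMap.coe_snd', ContinuousLinearMap.proj_apply, smul_eq_mul]
  ring

/-- **The derivative system.** -/
theorem deriv_isSol (h : D.Big m p) (ξ β : ι → ℝ) (v : Pa ι) :
    IsSol (MM p) (D.KK p) (D.hh ξ β p v) (fderiv ℝ (D.xx ξ β) p v)
      (fderiv ℝ (D.CC ξ β) p v) := by
  have hM : HasFDerivAt (MM : Pa ι → ι → ℝ) ((2 : ℝ)⁻¹ • ContinuousLinearMap.fst ℝ (ι → ℝ) (ι → ℝ))
      p := by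
    have h1 := ((2 : ℝ)⁻¹ • ContinuousLinearMap.fst ℝ (ι → ℝ) (ι → ℝ)).hasFDerivAt (x := p)
    refine h1.congr_of_eventuallyEq (Filter.Eventually.of_forall fun q => ?_)
    ext k
    simp only [MM, smul_apply, ContinuousLinearMap.coe_fst', Pi.smul_apply, smul_eq_mul]
    ring
  have hK : HasFDerivAt D.KK ((RK : _ →L[ℝ] _).comp (D.kk p)) p :=
    RK.hasFDerivAt.comp p (hasFDerivAt_kap h)
  have h1 : ∀ᶠ q in nhds p, IsSol (MM q) (D.KK q) (D.gg ξ β q) (D.xx ξ β q) (D.CC ξ β q) := by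
    filter_upwards [eventually_big h] with q hq
    obtain ⟨m', hm'⟩ := hq
    exact isSol hm' ξ β
  have h2 := IsSol.deriv h1 hM hK (hasFDerivAt_gg h ξ β) (hasFDerivAt_xx h ξ β)
    (hasFDerivAt_CC h ξ β) v
  convert h2 using 1
  ext k
  simp only [hh, sub_apply, ContinuousLinearMap.coe_pi', smul_apply,
    ContinuousLinearMap.comp_apply, ContinuousLinearMap.coe_snd', ContinuousLinearMap.coe_fst',
    ContinuousLinearMap.proj_apply, smul_eq_mul, Pi.sub_apply, Pi.smul_apply]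
  ring

end KapData

end Vale.Agent.P273.H722
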