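import Mathlib

/-!
P273, row POT-ASY [B]: linear systems with large parameters.

THETA VERSION.  Unknowns `x : ι → ℝ` (slopes on the necks) and `C : ℝ` (value on the core), given
large `M k`, a bounded linear map `K` and a right hand side `g`:

  `-(M k) * x k + (K x) k + C = g k` for all `k`,   `∑ k, x k = 0`.

Everything is measured by `w = ∑ k, |g k| / M k`.
-/

noncomputable section

namespace Vale.Agent.P273.H722

open Finset

variable {ι : Type} [Fintype ι]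

/-- The harmonic weights `r k = (1 / M k) / ∑ (1 / M l)`. -/
def rr (M : ι → ℝ) (k : ι) : ℝ := (M k)⁻¹ / ∑ l, (M l)⁻¹

/-- The weighted size of the right hand side. -/
def ww (M g : ι → ℝ) : ℝ := ∑ k, |g k| / M k

/-- Solutions of the system at theta. -/
def IsSol (M : ι → ℝ) (K : (ι → ℝ) →L[ℝ] (ι → ℝ)) (g x : ι → ℝ) (C : ℝ) : Prop :=
  (∀ k, -(M k) * x k + K x k + C = g k) ∧ ∑ k, x k = 0

section weights

variable {M : ι → ℝ} {m : ℝ}

theorem sum_inv_pos [Nonempty ι] (hM : ∀ k, 0 < M k) : 0 < ∑ l, (M l)⁻¹ :=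
  sum_pos (fun k _ => inv_pos.2 (hM k)) univ_nonempty

theorem rr_pos [Nonempty ι] (hM : ∀ k, 0 < M k) (k : ι) : 0 < rr M k :=
  div_pos (inv_pos.2 (hM k)) (sum_inv_pos hM)

theorem sum_rr [Nonempty ι] (hM : ∀ k, 0 < M k) : ∑ k, rr M k = 1 := by
  unfold rr
  rw [← sum_div]
  exact div_self (sum_inv_pos hM).ne'

theorem rr_le_one [Nonempty ι] (hM : ∀ k, 0 < M k) (k : ι) : rr M k ≤ 1 := by
  rw [← sum_rr hM]
  exact single_le_sum (fun l _ => (rr_pos hM l).le) (mem_univ k)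

/-- `r k ≤ m / M k` when `m` is at least the smallest of the `M l`. -/
theorem rr_le [Nonempty ι] (hM : ∀ k, 0 < M k) (hm : ∃ l, M l ≤ m) (k : ι) :
    rr M k ≤ m / M k := by
  obtain ⟨l, hl⟩ := hm
  have hS := sum_inv_pos hM
  have h1 : (M l)⁻¹ ≤ ∑ l, (M l)⁻¹ :=
    single_le_sum (f := fun l => (M l)⁻¹) (fun l _ => (inv_pos.2 (hM l)).le) (mem_univ l)
  have hm0 : 0 < m := (hM l).trans_le hl
  have h2 : m⁻¹ ≤ ∑ l, (M l)⁻¹ := (inv_anti₀ (hM l) hl).trans h1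
  unfold rr
  rw [div_le_div_iff₀ hS (hM k), inv_mul_cancel₀ (hM k).ne']
  calc (1 : ℝ) = m * m⁻¹ := (mul_inv_cancel₀ hm0.ne').symm
    _ ≤ m * ∑ l, (M l)⁻¹ := mul_le_mul_of_nonneg_left h2 hm0.le

theorem ww_nonneg (hM : ∀ k, 0 < M k) (g : ι → ℝ) : 0 ≤ ww M g :=
  sum_nonneg fun k _ => div_nonneg (abs_nonneg _) (hM k).le

theorem term_le_ww (hM : ∀ k, 0 < M k) (g : ι → ℝ) (k : ι) : |g k| / M k ≤ ww M g :=
  single_le_sum (f := fun k => |g k| / M k)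
    (fun k _ => div_nonneg (abs_nonneg _) (hM k).le) (mem_univ k)

theorem sum_rr_mul_le [Nonempty ι] (hM : ∀ k, 0 < M k) (hm : ∃ l, M l ≤ m) (g : ι → ℝ) :
    ∑ k, rr M k * |g k| ≤ m * ww M g := by
  unfold ww
  rw [mul_sum]
  refine sum_le_sum fun k _ => ?_
  calc rr M k * |g k| ≤ m / M k * |g k| :=
        mul_le_mul_of_nonneg_right (rr_le hM hm k) (abs_nonneg _)
    _ = m * (|g k| / M k) := by ring

theorem ww_le_norm (hM : ∀ k, 0 < M k) (hm0 : 0 < m) (hmM : ∀ k, m ≤ M k) (g : ι → ℝ) :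
    ww M g ≤ Fintype.card ι * (‖g‖ / m) := by
  unfold ww
  calc ∑ k, |g k| / M k ≤ ∑ _k : ι, ‖g‖ / m := by
        refine sum_le_sum fun k _ => ?_
        have h1 : |g k| ≤ ‖g‖ := by simpa using norm_le_pi_norm g k
        have := hM k
        exact div_le_div₀ (norm_nonneg _) h1 hm0 (hmM k)
    _ = Fintype.card ι * (‖g‖ / m) := by simp [card_univ]

theorem abs_sum_rr_le [Nonempty ι] (hM : ∀ k, 0 < M k) (f : ι → ℝ) {B : ℝ}
    (hf : ∀ k, |f k| ≤ B) : |∑ k, rr M k * f k| ≤ B := by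
  calc |∑ k, rr M k * f k| ≤ ∑ k, |rr M k * f k| := abs_sum_le_sum_abs _ _
    _ ≤ ∑ k, rr M k * B := by
        refine sum_le_sum fun k _ => ?_
        rw [abs_mul, abs_of_pos (rr_pos hM k)]
        exact mul_le_mul_of_nonneg_left (hf k) (rr_pos hM k).le
    _ = B := by rw [← sum_mul, sum_rr hM, one_mul]

end weights

section bounds

variable [Nonempty ι] {M : ι → ℝ} {K : (ι → ℝ) →L[ℝ] (ι → ℝ)} {g x : ι → ℝ} {C m κ : ℝ}

/-- The formula for the value on the core. -/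
theorem IsSol.formula_C (h : IsSol M K g x C) (hM : ∀ k, 0 < M k) :
    C = ∑ k, rr M k * (g k - K x k) := by
  have hS := sum_inv_pos hM
  have h1 : ∀ k, (M k)⁻¹ * C = (M k)⁻¹ * (g k - K x k) + x k := by
    intro k
    have h2 := h.1 k
    have h3 : C = g k - K x k + M k * x k := by linarith
    rw [h3, mul_add, ← mul_assoc, inv_mul_cancel₀ (hM k).ne', one_mul]
  have h4 : (∑ k, (M k)⁻¹) * C = ∑ k, (M k)⁻¹ * (g k - K x k) := by
    rw [sum_mul, sum_congr rfl fun k _ => h1 k, sum_add_distrib, h.2, add_zero]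
  have h5 : C = (∑ k, (M k)⁻¹ * (g k - K x k)) / ∑ k, (M k)⁻¹ :=
    eq_div_of_mul_eq hS.ne' (by rw [mul_comm]; exact h4)
  rw [h5, sum_div]
  refine sum_congr rfl fun k _ => ?_
  unfold rr
  ring

omit [Nonempty ι] in
theorem abs_K_le (hK : ‖K‖ ≤ κ) (x : ι → ℝ) (k : ι) : |K x k| ≤ κ * ‖x‖ := by
  have h1 : |K x k| ≤ ‖K x‖ := by simpa using norm_le_pi_norm (K x) k
  exact h1.trans ((K.le_opNorm x).trans (mul_le_mul_of_nonneg_right hK (norm_nonneg _)))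

/-- **A priori bound**: the slopes are `≤ 4 w`, the value on the core is `≤ 2 m w`. -/
theorem IsSol.bound (h : IsSol M K g x C) (hM : ∀ k, m ≤ M k) (hm : ∃ l, M l ≤ m) (hm0 : 0 < m)
    (hK : ‖K‖ ≤ κ) (hmκ : 4 * κ ≤ m) :
    ‖x‖ ≤ 4 * ww M g ∧ |C| ≤ 2 * m * ww M g ∧
      ∀ k, |M k * x k| ≤ 3 * m * ww M g + |g k| := by
  have hM0 : ∀ k, 0 < M k := fun k => hm0.trans_le (hM k)
  have hκ0 : 0 ≤ κ := (norm_nonneg _).trans hK
  have hw := ww_nonneg hM0 g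
  have hC : |C| ≤ m * ww M g + κ * ‖x‖ := by
    rw [h.formula_C hM0]
    have h1 : ∑ k, rr M k * (g k - K x k) = ∑ k, rr M k * g k - ∑ k, rr M k * K x k := by
      rw [← sum_sub_distrib]
      exact sum_congr rfl fun k _ => by ring
    rw [h1]
    refine (abs_sub _ _).trans (add_le_add ?_ ?_)
    · refine (abs_sum_le_sum_abs _ _).trans (le_trans (le_of_eq ?_) (sum_rr_mul_le hM0 hm g))
      exact sum_congr rfl fun k _ => by rw [abs_mul, abs_of_pos (rr_pos hM0 k)]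
    · exact abs_sum_rr_le hM0 _ (abs_K_le hK x)
  have hk : ∀ k, |M k * x k| ≤ |C| + κ * ‖x‖ + |g k| := by
    intro k
    have h1 : M k * x k = C + K x k - g k := by have := h.1 k; linarith
    rw [h1]
    refine (abs_sub _ _).trans (add_le_add ?_ le_rfl)
    exact (abs_add_le _ _).trans (add_le_add le_rfl (abs_K_le hK x k))
  have hx : ‖x‖ ≤ 2 * ww M g + (2 * κ / m) * ‖x‖ := by
    refine (pi_norm_le_iff_of_nonneg (by positivity)).2 fun k => ?_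
    have h1 := hk k
    have h2 : |x k| ≤ (|C| + κ * ‖x‖ + |g k|) / M k := by
      rw [le_div_iff₀ (hM0 k), mul_comm]
      rw [abs_mul, abs_of_pos (hM0 k)] at h1
      exact h1
    have h3 : (|C| + κ * ‖x‖) / M k ≤ (m * ww M g + 2 * (κ * ‖x‖)) / m := by
      refine div_le_div₀ (by positivity) (by linarith) hm0 (hM k)
    have h4 := term_le_ww hM0 g k
    have h5 : (|C| + κ * ‖x‖ + |g k|) / M k = (|C| + κ * ‖x‖) / M k + |g k| / M k := by
      rw [add_div]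
    have h6 : (m * ww M g + 2 * (κ * ‖x‖)) / m = ww M g + (2 * κ / m) * ‖x‖ := by
      field_simp
    rw [Real.norm_eq_abs]
    linarith
  have h7 : 2 * κ / m ≤ 1 / 2 := by
    rw [div_le_div_iff₀ hm0 two_pos]; linarith
  have hx' : ‖x‖ ≤ 4 * ww M g := by
    have h8 := mul_le_mul_of_nonneg_right h7 (norm_nonneg x)
    linarith
  have h9 : κ * ‖x‖ ≤ m * ww M g := by
    calc κ * ‖x‖ ≤ κ * (4 * ww M g) := mul_le_mul_of_nonneg_left hx' hκ0
      _ = (4 * κ) * ww M g := by ring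
      _ ≤ m * ww M g := mul_le_mul_of_nonneg_right hmκ hw
  refine ⟨hx', by linarith, fun k => ?_⟩
  have := hk k
  linarith

/-- **First order asymptotics**: `C = ∑ r g + O(w)`, `M k * x k = ∑ r g - g k + O(w)`. -/
theorem IsSol.asymp (h : IsSol M K g x C) (hM : ∀ k, m ≤ M k) (hm : ∃ l, M l ≤ m) (hm0 : 0 < m)
    (hK : ‖K‖ ≤ κ) (hmκ : 4 * κ ≤ m) :
    |C - ∑ k, rr M k * g k| ≤ 4 * κ * ww M g ∧
      ∀ k, |M k * x k - (∑ l, rr M l * g l - g k)| ≤ 8 * κ * ww M g := by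
  have hM0 : ∀ k, 0 < M k := fun k => hm0.trans_le (hM k)
  have hκ0 : 0 ≤ κ := (norm_nonneg _).trans hK
  have hx := (h.bound hM hm hm0 hK hmκ).1
  have hb : ∀ k, |K x k| ≤ 4 * κ * ww M g := fun k =>
    (abs_K_le hK x k).trans (by
      calc κ * ‖x‖ ≤ κ * (4 * ww M g) := mul_le_mul_of_nonneg_left hx hκ0
        _ = 4 * κ * ww M g := by ring)
  have h1 : C - ∑ k, rr M k * g k = - ∑ k, rr M k * K x k := by
    rw [h.formula_C hM0, ← sum_sub_distrib, ← sum_neg_distrib]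
    exact sum_congr rfl fun k _ => by ring
  have hC : |C - ∑ k, rr M k * g k| ≤ 4 * κ * ww M g := by
    rw [h1, abs_neg]
    exact abs_sum_rr_le hM0 _ hb
  refine ⟨hC, fun k => ?_⟩
  have h2 : M k * x k - (∑ l, rr M l * g l - g k) = (C - ∑ k, rr M k * g k) + K x k := by
    have := h.1 k
    linarith
  rw [h2]
  refine (abs_add_le _ _).trans ?_
  have := hb k
  linarith

/-- Uniqueness. -/
theorem IsSol.unique (h : IsSol M K 0 x C) (hM : ∀ k, m ≤ M k) (hm : ∃ l, M l ≤ m) (hm0 : 0 < m)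
    (hK : ‖K‖ ≤ κ) (hmκ : 4 * κ ≤ m) : x = 0 ∧ C = 0 := by
  obtain ⟨h1, h2, -⟩ := h.bound hM hm hm0 hK hmκ
  have h3 : ww M (0 : ι → ℝ) = 0 := by simp [ww]
  rw [h3, mul_zero] at h1 h2
  exact ⟨norm_le_zero_iff.1 h1, abs_nonpos_iff.1 h2⟩

end bounds

section derivative

variable {P : Type} [NormedAddCommGroup P] [NormedSpace ℝ P]

/-- **The derivative of a solution solves the same system** with right hand side
`dg + dM x - dK x`. -/
theorem IsSol.deriv {M : P → ι → ℝ} {K : P → (ι → ℝ) →L[ℝ] (ι → ℝ)} {g x : P → ι → ℝ}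
    {C : P → ℝ} {p : P} {M' g' x' : P →L[ℝ] ι → ℝ} {K' : P →L[ℝ] (ι → ℝ) →L[ℝ] (ι → ℝ)}
    {C' : P →L[ℝ] ℝ} (h : ∀ᶠ q in nhds p, IsSol (M q) (K q) (g q) (x q) (C q))
    (hM : HasFDerivAt M M' p) (hK : HasFDerivAt K K' p) (hg : HasFDerivAt g g' p)
    (hx : HasFDerivAt x x' p) (hC : HasFDerivAt C C' p) (v : P) :
    IsSol (M p) (K p) (fun k => g' v k + M' v k * x p k - K' v (x p) k) (x' v) (C' v) := by
  constructor
  · intro k
    have h1 : (fun q => -(M q k) * x q k + K q (x q) k + C q) =ᶠ[nhds p] fun q => g q k :=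
      h.mono fun q hq => hq.1 k
    have hMk : HasFDerivAt (fun q => M q k)
        ((ContinuousLinearMap.proj (R := ℝ) (φ := fun _ : ι => ℝ) k).comp M') p :=
      (ContinuousLinearMap.proj (R := ℝ) (φ := fun _ : ι => ℝ) k).hasFDerivAt.comp p hM
    have hxk : HasFDerivAt (fun q => x q k)
        ((ContinuousLinearMap.proj (R := ℝ) (φ := fun _ : ι => ℝ) k).comp x') p :=
      (ContinuousLinearMap.proj (R := ℝ) (φ := fun _ : ι => ℝ) k).hasFDerivAt.comp p hx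
    have hgk : HasFDerivAt (fun q => g q k)
        ((ContinuousLinearMap.proj (R := ℝ) (φ := fun _ : ι => ℝ) k).comp g') p :=
      (ContinuousLinearMap.proj (R := ℝ) (φ := fun _ : ι => ℝ) k).hasFDerivAt.comp p hg
    have hKx := hK.clm_apply hx
    have hKxk := (ContinuousLinearMap.proj (R := ℝ) (φ := fun _ : ι => ℝ) k).hasFDerivAt.comp p hKx
    have h2 := (((hMk.neg).mul hxk).add hKxk).add hC
    have h3 := h2.unique (hgk.congr_of_eventuallyEq h1)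
    have h4 := congrArg (fun L : P →L[ℝ] ℝ => L v) h3
    simp only [add_apply, smul_apply, ContinuousLinearMap.comp_apply,
      ContinuousLinearMap.proj_apply, smul_eq_mul, neg_apply, Pi.neg_apply,
      ContinuousLinearMap.flip_apply, Pi.add_apply] at h4
    show -(M p k) * x' v k + (K p) (x' v) k + C' v = g' v k + M' v k * x p k - K' v (x p) k
    linarith
  · have h1 : (fun q => ∑ k, x q k) =ᶠ[nhds p] fun _ => (0 : ℝ) := h.mono fun q hq => hq.2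
    have h2 : HasFDerivAt (fun q => ∑ k, x q k)
        (∑ k, (ContinuousLinearMap.proj (R := ℝ) (φ := fun _ : ι => ℝ) k).comp x') p :=
      HasFDerivAt.fun_sum fun k _ =>
        (ContinuousLinearMap.proj (R := ℝ) (φ := fun _ : ι => ℝ) k).hasFDerivAt.comp p hx
    have h3 := h2.unique ((hasFDerivAt_const (0 : ℝ) p).congr_of_eventuallyEq h1)
    have h4 := congrArg (fun L : P →L[ℝ] ℝ => L v) h3
    simpa using h4

end derivative

section smooth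

variable {P : Type} [NormedAddCommGroup P] [NormedSpace ℝ P]

/-- The size of the right hand side of the derivative system. -/
theorem ww_deriv_le {M : ι → ℝ} (hM : ∀ k, 0 < M k) (g' M' x : ι → ℝ)
    (K' : (ι → ℝ) →L[ℝ] (ι → ℝ)) :
    ww M (fun k => g' k + M' k * x k - K' x k) ≤
      ww M g' + ∑ k, |M' k| * |x k| / M k + ‖K'‖ * ‖x‖ * ∑ k, (M k)⁻¹ := by
  unfold ww
  rw [mul_sum, ← sum_add_distrib, ← sum_add_distrib]
  refine sum_le_sum fun k _ => ?_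
  have h1 : |g' k + M' k * x k - K' x k| ≤ |g' k| + |M' k| * |x k| + ‖K'‖ * ‖x‖ := by
    refine (abs_sub _ _).trans (add_le_add ((abs_add_le _ _).trans (add_le_add le_rfl ?_)) ?_)
    · rw [abs_mul]
    · exact abs_K_le le_rfl x k
  calc |g' k + M' k * x k - K' x k| / M k
      ≤ (|g' k| + |M' k| * |x k| + ‖K'‖ * ‖x‖) / M k :=
        div_le_div_of_nonneg_right h1 (hM k).le
    _ = |g' k| / M k + |M' k| * |x k| / M k + ‖K'‖ * ‖x‖ * (M k)⁻¹ := by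
        rw [div_eq_mul_inv, div_eq_mul_inv, div_eq_mul_inv]; ring

/-- The linear map of the system. -/
def lin (M : ι → ℝ) (K : (ι → ℝ) →L[ℝ] (ι → ℝ)) :
    ((ι → ℝ) × ℝ) →L[ℝ] ((ι → ℝ) × ℝ) :=
  (ContinuousLinearMap.inl ℝ (ι → ℝ) ℝ).comp (ContinuousLinearMap.pi fun k =>
      (-(M k)) • (ContinuousLinearMap.proj (R := ℝ) (φ := fun _ : ι => ℝ) k).comp
        (ContinuousLinearMap.fst ℝ (ι → ℝ) ℝ) +
      (ContinuousLinearMap.proj (R := ℝ) (φ := fun _ : ι => ℝ) k).comp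
        (K.comp (ContinuousLinearMap.fst ℝ (ι → ℝ) ℝ)) +
      ContinuousLinearMap.snd ℝ (ι → ℝ) ℝ) +
    (ContinuousLinearMap.inr ℝ (ι → ℝ) ℝ).comp
      ((∑ k, ContinuousLinearMap.proj (R := ℝ) (φ := fun _ : ι => ℝ) k).comp
        (ContinuousLinearMap.fst ℝ (ι → ℝ) ℝ))

theorem lin_apply (M : ι → ℝ) (K : (ι → ℝ) →L[ℝ] (ι → ℝ)) (x : ι → ℝ) (C : ℝ) :
    lin M K (x, C) = (fun k => -(M k) * x k + K x k + C, ∑ k, x k) := by
  unfold lin
  have h1 : (∑ k, ContinuousLinearMap.proj (R := ℝ) (φ := fun _ : ι => ℝ) k) x = ∑ k, x k := by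
    rw [_root_.sum_apply]
    rfl
  simp only [add_apply, ContinuousLinearMap.comp_apply, ContinuousLinearMap.coe_fst', h1,
    ContinuousLinearMap.inl_apply, ContinuousLinearMap.inr_apply, Prod.mk_add_mk, add_zero,
    zero_add]
  rfl

theorem isSol_iff {M : ι → ℝ} {K : (ι → ℝ) →L[ℝ] (ι → ℝ)} {g x : ι → ℝ} {C : ℝ} :
    IsSol M K g x C ↔ lin M K (x, C) = (g, 0) := by
  rw [lin_apply, Prod.mk.injEq, funext_iff]
  exact Iff.rfl

/-- The solution. -/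
def sol (M : ι → ℝ) (K : (ι → ℝ) →L[ℝ] (ι → ℝ)) (g : ι → ℝ) : (ι → ℝ) × ℝ :=
  (lin M K).inverse (g, 0)

variable [Nonempty ι] {m κ : ℝ}

theorem lin_bij {M : ι → ℝ} {K : (ι → ℝ) →L[ℝ] (ι → ℝ)} (hM : ∀ k, m ≤ M k)
    (hm : ∃ l, M l ≤ m) (hm0 : 0 < m) (hK : ‖K‖ ≤ κ) (hmκ : 4 * κ ≤ m) :
    ∃ e : ((ι → ℝ) × ℝ) ≃L[ℝ] ((ι → ℝ) × ℝ), (e : _ →L[ℝ] _) = lin M K := by
  have hM0 : ∀ k, 0 < M k := fun k => hm0.trans_le (hM k)
  have hinj : Function.Injective (lin M K : ((ι → ℝ) × ℝ) →ₗ[ℝ] ((ι → ℝ) × ℝ)) := by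
    rw [injective_iff_map_eq_zero]
    rintro ⟨x, C⟩ h
    have h1 : IsSol M K 0 x C := isSol_iff.2 (show lin M K (x, C) = (0, 0) from h)
    obtain ⟨h2, h3⟩ := h1.unique hM hm hm0 hK hmκ
    rw [h2, h3]
    rfl
  let e := (LinearEquiv.ofInjectiveEndo _ hinj).toContinuousLinearEquiv
  refine ⟨e, ?_⟩
  ext x <;> rfl

theorem sol_isSol {M : ι → ℝ} {K : (ι → ℝ) →L[ℝ] (ι → ℝ)} (hM : ∀ k, m ≤ M k)
    (hm : ∃ l, M l ≤ m) (hm0 : 0 < m) (hK : ‖K‖ ≤ κ) (hmκ : 4 * κ ≤ m) (g : ι → ℝ) :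
    IsSol M K g (sol M K g).1 (sol M K g).2 := by
  obtain ⟨e, he⟩ := lin_bij hM hm hm0 hK hmκ
  rw [isSol_iff]
  unfold sol
  rw [Prod.mk.eta, ← he, ContinuousLinearMap.inverse_equiv]
  exact e.apply_symm_apply _

theorem IsSol.eq_sol {M : ι → ℝ} {K : (ι → ℝ) →L[ℝ] (ι → ℝ)} {g x : ι → ℝ} {C : ℝ}
    (h : IsSol M K g x C) (hM : ∀ k, m ≤ M k)
    (hm : ∃ l, M l ≤ m) (hm0 : 0 < m) (hK : ‖K‖ ≤ κ) (hmκ : 4 * κ ≤ m) :
    x = (sol M K g).1 ∧ C = (sol M K g).2 := by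
  obtain ⟨e, he⟩ := lin_bij hM hm hm0 hK hmκ
  rw [isSol_iff, ← he] at h
  have h1 : (x, C) = sol M K g := by
    unfold sol
    rw [← he, ContinuousLinearMap.inverse_equiv, ← h]
    exact (e.symm_apply_apply _).symm
  rw [← h1]
  exact ⟨rfl, rfl⟩

theorem contDiffAt_sol {n : WithTop ℕ∞} {M : P → ι → ℝ} {K : P → (ι → ℝ) →L[ℝ] (ι → ℝ)}
    {g : P → ι → ℝ} {p : P} (cM : ContDiffAt ℝ n M p) (cK : ContDiffAt ℝ n K p)
    (cg : ContDiffAt ℝ n g p) (hM : ∀ k, m ≤ M p k)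
    (hm : ∃ l, M p l ≤ m) (hm0 : 0 < m) (hK : ‖K p‖ ≤ κ) (hmκ : 4 * κ ≤ m) :
    ContDiffAt ℝ n (fun q => sol (M q) (K q) (g q)) p := by
  obtain ⟨e, he⟩ := lin_bij hM hm hm0 hK hmκ
  have hlin : ContDiffAt ℝ n (fun q => lin (M q) (K q)) p := by
    unfold lin
    refine ContDiffAt.add (contDiffAt_const.clm_comp ?_) contDiffAt_const
    refine (ContinuousLinearMap.contDiff (𝕜 := ℝ) (E := ι → (((ι → ℝ) × ℝ) →L[ℝ] ℝ))
      (F := ((ι → ℝ) × ℝ) →L[ℝ] (ι → ℝ)) (LinearMap.toContinuousLinearMap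
        { toFun := fun f => ContinuousLinearMap.pi f
          map_add' := fun f g => by ext <;> rfl
          map_smul' := fun c f => by ext <;> rfl })).contDiffAt.comp p ?_
    refine contDiffAt_pi.2 fun k => ?_
    have hMk : ContDiffAt ℝ n (fun q => M q k) p := contDiffAt_pi.1 cM k
    exact ((hMk.neg.smul contDiffAt_const).add (contDiffAt_const.clm_comp
      (cK.clm_comp contDiffAt_const))).add contDiffAt_const
  have h1 : ContDiffAt ℝ n (fun q => (lin (M q) (K q)).inverse) p := by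
    have h2 := contDiffAt_map_inverse (𝕜 := ℝ) (n := n) e
    rw [he] at h2
    exact h2.comp p hlin
  exact h1.clm_apply (cg.prodMk contDiffAt_const)

end smooth

section regular

/-!
REGULAR VERSION (one or two nodes): the necks `ι` with large `M`, and a regular block `Z` with an
invertible map `D` whose inverse is bounded by `δ`.
-/

variable {Z Z' : Type} [NormedAddCommGroup Z] [NormedSpace ℝ Z] [NormedAddCommGroup Z']
  [NormedSpace ℝ Z']

/-- Solutions of the system with a regular block. -/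
def IsSolR (M : ι → ℝ) (A : (ι → ℝ) →L[ℝ] (ι → ℝ)) (B : Z →L[ℝ] (ι → ℝ))
    (E : (ι → ℝ) →L[ℝ] Z') (D : Z →L[ℝ] Z') (g : ι → ℝ) (h : Z') (x : ι → ℝ) (z : Z) : Prop :=
  (∀ k, -(M k) * x k + A x k + B z k = g k) ∧ E x + D z = h

variable {M : ι → ℝ} {A : (ι → ℝ) →L[ℝ] (ι → ℝ)} {B : Z →L[ℝ] (ι → ℝ)}
  {E : (ι → ℝ) →L[ℝ] Z'} {D : Z →L[ℝ] Z'} {g x : ι → ℝ} {h : Z'} {z : Z} {m κ δ : ℝ}

/-- **A priori bound** with a regular block. -/
theorem IsSolR.bound (s : IsSolR M A B E D g h x z) (hM : ∀ k, m ≤ M k) (hm0 : 0 < m)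
    (hA : ‖A‖ ≤ κ) (hB : ‖B‖ ≤ κ) (hE : ‖E‖ ≤ κ) (hD : ∀ z, ‖z‖ ≤ δ * ‖D z‖) (hδ : 0 ≤ δ)
    (hκ : 0 ≤ κ) (hmκ : 2 * (κ + κ * δ * κ) ≤ m) :
    (∀ k, |M k * x k| ≤ |g k| + κ * δ * ‖h‖ + (κ + κ * δ * κ) * ‖x‖) ∧
    ‖x‖ ≤ 2 / m * (‖g‖ + κ * δ * ‖h‖) ∧ ‖z‖ ≤ δ * (‖h‖ + κ * ‖x‖) := by
  have hM0 : ∀ k, 0 < M k := fun k => hm0.trans_le (hM k)
  have hz : ‖z‖ ≤ δ * (‖h‖ + κ * ‖x‖) := by
    refine (hD z).trans (mul_le_mul_of_nonneg_left ?_ hδ)
    have h1 : D z = h - E x := by rw [← s.2]; abel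
    rw [h1]
    refine (norm_sub_le _ _).trans (add_le_add le_rfl ?_)
    exact (E.le_opNorm x).trans (mul_le_mul_of_nonneg_right hE (norm_nonneg _))
  have hk : ∀ k, |M k * x k| ≤ |g k| + κ * δ * ‖h‖ + (κ + κ * δ * κ) * ‖x‖ := by
    intro k
    have h1 : M k * x k = (A x k + B z k) - g k := by have := s.1 k; linarith
    have h2 : |B z k| ≤ κ * ‖z‖ := by
      have h1 : |B z k| ≤ ‖B z‖ := by simpa using norm_le_pi_norm (B z) k
      exact h1.trans ((B.le_opNorm z).trans (mul_le_mul_of_nonneg_right hB (norm_nonneg _)))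
    have h3 : κ * ‖z‖ ≤ κ * (δ * (‖h‖ + κ * ‖x‖)) := mul_le_mul_of_nonneg_left hz hκ
    rw [h1]
    calc |(A x k + B z k) - g k| ≤ |A x k + B z k| + |g k| := abs_sub _ _
      _ ≤ (|A x k| + |B z k|) + |g k| := add_le_add (abs_add_le _ _) le_rfl
      _ ≤ (κ * ‖x‖ + κ * (δ * (‖h‖ + κ * ‖x‖))) + |g k| :=
          add_le_add (add_le_add (abs_K_le hA x k) (h2.trans h3)) le_rfl
      _ = |g k| + κ * δ * ‖h‖ + (κ + κ * δ * κ) * ‖x‖ := by ring
  refine ⟨hk, ?_, hz⟩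
  have hx : ‖x‖ ≤ (‖g‖ + κ * δ * ‖h‖ + (κ + κ * δ * κ) * ‖x‖) / m := by
    refine (pi_norm_le_iff_of_nonneg (by positivity)).2 fun k => ?_
    have h1 := hk k
    have h2 : |g k| ≤ ‖g‖ := by simpa using norm_le_pi_norm g k
    rw [Real.norm_eq_abs, le_div_iff₀ hm0]
    have h3 : |x k| * m ≤ |M k * x k| := by
      rw [abs_mul, abs_of_pos (hM0 k), mul_comm]
      exact mul_le_mul_of_nonneg_right (hM k) (abs_nonneg _)
    linarith
  rw [le_div_iff₀ hm0] at hx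
  have h4 : (κ + κ * δ * κ) * ‖x‖ ≤ m / 2 * ‖x‖ :=
    mul_le_mul_of_nonneg_right (by linarith) (norm_nonneg _)
  rw [div_mul_eq_mul_div, le_div_iff₀ hm0]
  linarith

/-- **First order asymptotics** with a regular block: `z₀` is the solution of `D z₀ = h`. -/
theorem IsSolR.asymp (s : IsSolR M A B E D g h x z) {z₀ : Z} (hz₀ : D z₀ = h)
    (hA : ‖A‖ ≤ κ) (hB : ‖B‖ ≤ κ) (hE : ‖E‖ ≤ κ) (hD : ∀ z, ‖z‖ ≤ δ * ‖D z‖) (hδ : 0 ≤ δ)
    (hκ : 0 ≤ κ) :
    ‖z - z₀‖ ≤ δ * κ * ‖x‖ ∧ ∀ k, |M k * x k - (B z₀ k - g k)| ≤ (κ + κ * δ * κ) * ‖x‖ := by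
  have h1 : ‖z - z₀‖ ≤ δ * κ * ‖x‖ := by
    have h2 : D (z - z₀) = - E x := by
      rw [map_sub, hz₀, ← s.2]; abel
    refine (hD _).trans ?_
    rw [h2, norm_neg, mul_assoc]
    exact mul_le_mul_of_nonneg_left
      ((E.le_opNorm x).trans (mul_le_mul_of_nonneg_right hE (norm_nonneg _))) hδ
  refine ⟨h1, fun k => ?_⟩
  have h2 : M k * x k - (B z₀ k - g k) = A x k + B (z - z₀) k := by
    have h3 := s.1 k
    rw [map_sub, Pi.sub_apply]
    linarith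
  rw [h2]
  have h4 : |B (z - z₀) k| ≤ κ * ‖z - z₀‖ := by
    have h1 : |B (z - z₀) k| ≤ ‖B (z - z₀)‖ := by simpa using norm_le_pi_norm (B (z - z₀)) k
    exact h1.trans ((B.le_opNorm _).trans (mul_le_mul_of_nonneg_right hB (norm_nonneg _)))
  calc |A x k + B (z - z₀) k| ≤ |A x k| + |B (z - z₀) k| := abs_add_le _ _
    _ ≤ κ * ‖x‖ + κ * ‖z - z₀‖ := add_le_add (abs_K_le hA x k) h4
    _ ≤ κ * ‖x‖ + κ * (δ * κ * ‖x‖) := add_le_add le_rfl (mul_le_mul_of_nonneg_left h1 hκ)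
    _ = (κ + κ * δ * κ) * ‖x‖ := by ring

end regular

end Vale.Agent.P273.H722
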