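import Vale.Agent.P273.H722.Theta

/-!
P273, row POT-ASY [B], part 3: bounds and first order asymptotics of `w k = y k * x k / 2`, `C` and
their derivatives.
-/

noncomputable section

namespace Vale.Agent.P273.H722

open Finset Complex

variable {ι : Type} [Fintype ι] [Nonempty ι]

theorem exp_neg_le {y : ℝ} (hy : 0 < y) : Real.exp (-y) ≤ 2 / y ^ 2 := by
  have h1 := Real.quadratic_le_exp_of_nonneg hy.le
  rw [Real.exp_neg, le_div_iff₀ (by positivity), inv_mul_le_iff₀ (Real.exp_pos _)]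
  nlinarith

theorem exp_neg_le' {y : ℝ} (hy : 0 < y) : y * Real.exp (-y) ≤ 2 / y := by
  calc y * Real.exp (-y) ≤ y * (2 / y ^ 2) := mul_le_mul_of_nonneg_left (exp_neg_le hy) hy.le
    _ = 2 / y := by field_simp

section abstract

variable [DecidableEq ι] {M : ι → ℝ} {K : (ι → ℝ) →L[ℝ] (ι → ℝ)} {g x h : ι → ℝ}
  {C m κ a b : ℝ} {l : ι}

omit [Nonempty ι] in
/-- The weighted size of a right hand side which is large only at `l`. -/
theorem ww_le_of_single (hM : ∀ k, m / 2 ≤ M k) (hm0 : 0 < m) (hb : 0 ≤ b)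
    (hh : ∀ k, |h k| ≤ (if k = l then a else 0) + b) :
    ww M h ≤ a / M l + 2 * Fintype.card ι * b / m := by
  have hM0 : ∀ k, 0 < M k := fun k => (half_pos hm0).trans_le (hM k)
  unfold ww
  calc ∑ k, |h k| / M k ≤ ∑ k, ((if k = l then a / M l else 0) + 2 * b / m) := by
        refine sum_le_sum fun k _ => ?_
        have h1 : |h k| / M k ≤ ((if k = l then a else 0) + b) / M k :=
          div_le_div_of_nonneg_right (hh k) (hM0 k).le
        have h2 : b / M k ≤ 2 * b / m := by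
          rw [div_le_div_iff₀ (hM0 k) hm0]
          nlinarith [hM k]
        rw [add_div] at h1
        by_cases hk : k = l
        · subst hk
          simp only [if_true] at h1 ⊢
          linarith
        · simp only [hk, if_false, zero_div] at h1 ⊢
          linarith
    _ = a / M l + 2 * Fintype.card ι * b / m := by
        rw [sum_add_distrib, sum_ite_eq' univ l, if_pos (mem_univ l), sum_const, card_univ,
          nsmul_eq_mul]
        ring

/-- Everything about a solution whose right hand side is large only at `l`. -/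
theorem IsSol.single (s : IsSol M K h x C) (hM : ∀ k, m / 2 ≤ M k) (hm : ∃ l, M l ≤ m / 2)
    (hm0 : 0 < m) (hK : ‖K‖ ≤ κ) (hmκ : 8 * κ ≤ m) (hb : 0 ≤ b)
    (hh : ∀ k, |h k| ≤ (if k = l then a else 0) + b) :
    |C| ≤ m * (a / M l) + 2 * Fintype.card ι * b ∧
    ‖x‖ ≤ 4 * (a / M l) + 8 * Fintype.card ι * b / m ∧
    |C - ∑ k, rr M k * h k| ≤ 4 * κ * (a / M l) + Fintype.card ι * b ∧
    κ * ‖x‖ ≤ 4 * κ * (a / M l) + Fintype.card ι * b := by
  have hκ : 0 ≤ κ := (norm_nonneg _).trans hK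
  have hw := ww_le_of_single hM hm0 hb hh
  obtain ⟨h1, h2, -⟩ := s.bound hM hm (half_pos hm0) hK (by linarith)
  obtain ⟨h3, -⟩ := s.asymp hM hm (half_pos hm0) hK (by linarith)
  have hn : (0 : ℝ) ≤ Fintype.card ι := Nat.cast_nonneg _
  have h4 : κ * (8 * Fintype.card ι * b / m) ≤ Fintype.card ι * b := by
    rw [mul_div_assoc', div_le_iff₀ hm0]
    have : 0 ≤ Fintype.card ι * b := mul_nonneg hn hb
    nlinarith
  refine ⟨?_, ?_, ?_, ?_⟩
  · calc |C| ≤ 2 * (m / 2) * ww M h := h2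
      _ ≤ 2 * (m / 2) * (a / M l + 2 * Fintype.card ι * b / m) :=
          mul_le_mul_of_nonneg_left hw (by linarith)
      _ = m * (a / M l) + 2 * Fintype.card ι * b := by field_simp
  · calc ‖x‖ ≤ 4 * ww M h := h1
      _ ≤ 4 * (a / M l + 2 * Fintype.card ι * b / m) := by linarith
      _ = 4 * (a / M l) + 8 * Fintype.card ι * b / m := by ring
  · calc |C - ∑ k, rr M k * h k| ≤ 4 * κ * ww M h := h3
      _ ≤ 4 * κ * (a / M l + 2 * Fintype.card ι * b / m) :=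
          mul_le_mul_of_nonneg_left hw (by linarith)
      _ = 4 * κ * (a / M l) + κ * (8 * Fintype.card ι * b / m) := by ring
      _ ≤ _ := by linarith
  · calc κ * ‖x‖ ≤ κ * (4 * ww M h) := mul_le_mul_of_nonneg_left h1 hκ
      _ ≤ κ * (4 * (a / M l + 2 * Fintype.card ι * b / m)) :=
          mul_le_mul_of_nonneg_left (by linarith) hκ
      _ = 4 * κ * (a / M l) + κ * (8 * Fintype.card ι * b / m) := by ring
      _ ≤ _ := by linarith

end abstract

namespace KapData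

variable {D : KapData ι} {m Λ : ℝ} {p : Pa ι} {ξ β : ι → ℝ}

/-- The size of the class. -/
def sz (ξ β : ι → ℝ) : ℝ := ‖ξ‖ + ‖β‖

omit [Nonempty ι] in
theorem sz_nonneg (ξ β : ι → ℝ) : 0 ≤ sz ξ β := add_nonneg (norm_nonneg _) (norm_nonneg _)

omit [Nonempty ι] in
theorem abs_gg_le (h : D.Big m p) (hΛ : ∀ k, |p.2 k| ≤ Λ) (k : ι) :
    |D.gg ξ β p k| ≤ (1 + Λ + D.κ) * sz ξ β := by
  have h0 : 0 ≤ Λ := (abs_nonneg _).trans (hΛ k)
  have h1 : |ξ k| ≤ ‖ξ‖ := norm_le_pi_norm ξ k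
  have h2 : |β k| ≤ ‖β‖ := norm_le_pi_norm β k
  have h3 : |β k * p.2 k / (2 * Real.pi)| ≤ ‖β‖ * Λ := by
    rw [abs_div, abs_mul, abs_of_pos (by positivity : (0 : ℝ) < 2 * Real.pi)]
    refine (div_le_self (by positivity) ?_).trans ?_
    · linarith [Real.pi_gt_three]
    · exact mul_le_mul h2 (hΛ k) (abs_nonneg _) (norm_nonneg _)
  have h4 : |RG β (D.kap (ep p)) k| ≤ ‖β‖ * D.κ := by
    have h5 : |RG β (D.kap (ep p)) k| ≤ ‖RG β (D.kap (ep p))‖ :=
      norm_le_pi_norm (RG β (D.kap (ep p))) k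
    exact h5.trans ((norm_RG_le _ _).trans
      (mul_le_mul_of_nonneg_left (D.bound _ h.ep_lt) (norm_nonneg _)))
  have h5 := D.κ_one
  unfold gg sz
  calc |ξ k + β k * p.2 k / (2 * Real.pi) - RG β (D.kap (ep p)) k|
      ≤ |ξ k| + |β k * p.2 k / (2 * Real.pi)| + |RG β (D.kap (ep p)) k| :=
        (abs_sub _ _).trans (add_le_add (abs_add_le _ _) le_rfl)
    _ ≤ ‖ξ‖ + ‖β‖ * Λ + ‖β‖ * D.κ := add_le_add (add_le_add h1 h3) h4
    _ ≤ (1 + Λ + D.κ) * (‖ξ‖ + ‖β‖) := by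
        have := norm_nonneg ξ
        have := norm_nonneg β
        nlinarith [mul_nonneg h0 (norm_nonneg ξ), mul_nonneg (zero_le_one.trans h5)
          (norm_nonneg ξ)]

/-- The number of necks. -/
def nn (ι : Type) [Fintype ι] : ℝ := Fintype.card ι

omit [Nonempty ι] in
theorem nn_nonneg : 0 ≤ nn ι := Nat.cast_nonneg _

theorem bounds0 (h : D.Big m p) (hΛ : ∀ k, |p.2 k| ≤ Λ) :
    ‖D.xx ξ β p‖ ≤ 8 * nn ι * ((1 + Λ + D.κ) * sz ξ β) / m ∧
    |D.CC ξ β p| ≤ 2 * nn ι * ((1 + Λ + D.κ) * sz ξ β) ∧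
    (∀ k, |D.wf ξ β p k| ≤ (3 * nn ι + 1) * ((1 + Λ + D.κ) * sz ξ β)) ∧
    |D.CC ξ β p - ∑ k, rr p.1 k * D.gg ξ β p k| ≤
      8 * D.κ * nn ι * ((1 + Λ + D.κ) * sz ξ β) / m ∧
    ∀ k, |D.wf ξ β p k - (∑ l, rr p.1 l * D.gg ξ β p l - D.gg ξ β p k)| ≤
      16 * D.κ * nn ι * ((1 + Λ + D.κ) * sz ξ β) / m := by
  set G := (1 + Λ + D.κ) * sz ξ β with hG
  have hm0 : 0 < m := by linarith [h.pos]
  have hg := fun k => abs_gg_le (ξ := ξ) (β := β) h hΛ k
  rw [← hG] at hg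
  have hG0 : 0 ≤ G := (abs_nonneg _).trans (hg (Classical.arbitrary ι))
  have hκ : 0 ≤ D.κ := zero_le_one.trans D.κ_one
  have hw : ww (MM p) (D.gg ξ β p) ≤ 2 * nn ι * G / m := by
    unfold ww
    calc ∑ k, |D.gg ξ β p k| / MM p k ≤ ∑ _k : ι, 2 * G / m := by
          refine sum_le_sum fun k _ => ?_
          have h1 := h.hM k
          have h2 := h.M_pos k
          rw [div_le_div_iff₀ h2 hm0]
          nlinarith [hg k, abs_nonneg (D.gg ξ β p k)]
      _ = 2 * nn ι * G / m := by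
          rw [sum_const, card_univ, nsmul_eq_mul]; unfold nn; ring
  have hs := isSol h ξ β
  obtain ⟨h1, h2, h3⟩ := hs.bound h.hM h.hm h.hm0 h.hK h.hmκ
  obtain ⟨h4, h5⟩ := hs.asymp h.hM h.hm h.hm0 h.hK h.hmκ
  have hr : ∀ k, rr (MM p) k = rr p.1 k := by
    intro k
    have h6 : ∀ l, (MM p l)⁻¹ = 2 * (p.1 l)⁻¹ := by
      intro l; unfold MM; rw [inv_div, div_eq_mul_inv]
    unfold rr
    rw [h6, sum_congr rfl fun l _ => h6 l, ← mul_sum, mul_div_mul_left _ _ two_ne_zero]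
  simp only [hr] at h4 h5
  refine ⟨?_, ?_, ?_, ?_, ?_⟩
  · calc ‖D.xx ξ β p‖ ≤ 4 * ww (MM p) (D.gg ξ β p) := h1
      _ ≤ 4 * (2 * nn ι * G / m) := by linarith
      _ = _ := by ring
  · calc |D.CC ξ β p| ≤ 2 * (m / 2) * ww (MM p) (D.gg ξ β p) := h2
      _ ≤ 2 * (m / 2) * (2 * nn ι * G / m) := mul_le_mul_of_nonneg_left hw (by linarith)
      _ = _ := by field_simp
  · intro k
    calc |D.wf ξ β p k| ≤ 3 * (m / 2) * ww (MM p) (D.gg ξ β p) + |D.gg ξ β p k| := h3 k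
      _ ≤ 3 * (m / 2) * (2 * nn ι * G / m) + G :=
          add_le_add (mul_le_mul_of_nonneg_left hw (by linarith)) (hg k)
      _ = _ := by field_simp
  · calc _ ≤ 4 * D.κ * ww (MM p) (D.gg ξ β p) := h4
      _ ≤ 4 * D.κ * (2 * nn ι * G / m) := mul_le_mul_of_nonneg_left hw (by linarith)
      _ = _ := by ring
  · intro k
    calc _ ≤ 8 * D.κ * ww (MM p) (D.gg ξ β p) := h5 k
      _ ≤ 8 * D.κ * (2 * nn ι * G / m) := mul_le_mul_of_nonneg_left hw (by linarith)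
      _ = _ := by ring


/-! ### Derivatives -/

variable [DecidableEq ι]

/-- The size of the exponentially small terms. -/
def bb (D : KapData ι) (ξ β : ι → ℝ) (p : Pa ι) (l : ι) : ℝ :=
  D.κ * Real.exp (-(p.1 l)) * (‖β‖ + ‖D.xx ξ β p‖)

omit [Nonempty ι] [DecidableEq ι] in
theorem bb_nonneg (D : KapData ι) (ξ β : ι → ℝ) (p : Pa ι) (l : ι) : 0 ≤ D.bb ξ β p l := by
  have := D.κ_one
  unfold bb
  have := Real.exp_pos (-(p.1 l))
  positivity

omit [Nonempty ι] [DecidableEq ι] in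
theorem small_le (h : D.Big m p) (ξ β : ι → ℝ) {v : Pa ι} {l : ι}
    (hv : ‖dep p v‖ ≤ Real.exp (-(p.1 l))) (k : ι) :
    |RG β (D.kk p v) k + RK (D.kk p v) (D.xx ξ β p) k| ≤ D.bb ξ β p l := by
  have h1 : ‖D.kk p v‖ ≤ D.κ * Real.exp (-(p.1 l)) :=
    (norm_kk_le h v).trans (mul_le_mul_of_nonneg_left hv (zero_le_one.trans D.κ_one))
  have h2 : |RG β (D.kk p v) k| ≤ ‖β‖ * (D.κ * Real.exp (-(p.1 l))) := by
    have h5 : |RG β (D.kk p v) k| ≤ ‖RG β (D.kk p v)‖ := norm_le_pi_norm (RG β (D.kk p v)) k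
    exact h5.trans ((norm_RG_le _ _).trans (mul_le_mul_of_nonneg_left h1 (norm_nonneg _)))
  have h3 : |RK (D.kk p v) (D.xx ξ β p) k| ≤ D.κ * Real.exp (-(p.1 l)) * ‖D.xx ξ β p‖ :=
    abs_K_le ((norm_RK_le _).trans h1) _ k
  unfold bb
  refine (abs_add_le _ _).trans ((add_le_add h2 h3).trans (le_of_eq ?_))
  ring

omit [Nonempty ι] in
theorem hh_ey (ξ β : ι → ℝ) (p : Pa ι) (l k : ι) :
    D.hh ξ β p (ey l) k = (if k = l then D.xx ξ β p l / 2 else 0) -
      (RG β (D.kk p (ey l)) k + RK (D.kk p (ey l)) (D.xx ξ β p) k) := by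
  unfold hh
  by_cases hk : k = l
  · subst hk
    simp [ey]
    ring
  · simp [ey, hk]
    ring

omit [Nonempty ι] in
theorem hh_ea (ξ β : ι → ℝ) (p : Pa ι) (l k : ι) :
    D.hh ξ β p (ea l) k = (if k = l then β l / (2 * Real.pi) else 0) -
      (RG β (D.kk p (ea l)) k + RK (D.kk p (ea l)) (D.xx ξ β p) k) := by
  unfold hh
  by_cases hk : k = l
  · subst hk
    simp [ea]
    ring
  · simp [ea, hk]
    ring

omit [Nonempty ι] in
theorem abs_hh_ey_le (h : D.Big m p) (ξ β : ι → ℝ) (l k : ι) :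
    |D.hh ξ β p (ey l) k| ≤ (if k = l then |D.xx ξ β p l| / 2 else 0) + D.bb ξ β p l := by
  rw [hh_ey]
  refine (abs_sub _ _).trans (add_le_add ?_ (small_le h ξ β (norm_dep_ey p l) k))
  by_cases hk : k = l
  · simp [hk, abs_div]
  · simp [hk]

omit [Nonempty ι] in
theorem abs_hh_ea_le (h : D.Big m p) (ξ β : ι → ℝ) (l k : ι) :
    |D.hh ξ β p (ea l) k| ≤ (if k = l then ‖β‖ else 0) + D.bb ξ β p l := by
  rw [hh_ea]
  refine (abs_sub _ _).trans (add_le_add ?_ (small_le h ξ β (norm_dep_ea p l) k))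
  by_cases hk : k = l
  · simp only [hk, if_true]
    rw [abs_div, abs_of_pos (by positivity : (0 : ℝ) < 2 * Real.pi)]
    refine (div_le_self (abs_nonneg _) (by linarith [Real.pi_gt_three])).trans
      (norm_le_pi_norm β l)
  · simp [hk]

omit [DecidableEq ι] in
/-- The derivative of `w`. -/
theorem fderiv_wf (h : D.Big m p) (ξ β : ι → ℝ) (v : Pa ι) (k : ι) :
    fderiv ℝ (fun q => D.wf ξ β q k) p v =
      fderiv ℝ (D.CC ξ β) p v - D.hh ξ β p v k + v.1 k / 2 * D.xx ξ β p k +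
        D.KK p (fderiv ℝ (D.xx ξ β) p v) k := by
  have h1 : HasFDerivAt (fun q : Pa ι => q.1 k / 2)
      ((2 : ℝ)⁻¹ • ((ContinuousLinearMap.proj (R := ℝ) (φ := fun _ : ι => ℝ) k).comp
        (ContinuousLinearMap.fst ℝ (ι → ℝ) (ι → ℝ)))) p := by
    have h2 := ((2 : ℝ)⁻¹ • ((ContinuousLinearMap.proj (R := ℝ) (φ := fun _ : ι => ℝ) k).comp
        (ContinuousLinearMap.fst ℝ (ι → ℝ) (ι → ℝ)))).hasFDerivAt (x := p)
    refine h2.congr_of_eventuallyEq (Filter.Eventually.of_forall fun q => ?_)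
    simp only [smul_apply, ContinuousLinearMap.comp_apply,
      ContinuousLinearMap.coe_fst', ContinuousLinearMap.proj_apply, smul_eq_mul]
    ring
  have h2 : HasFDerivAt (fun q : Pa ι => D.xx ξ β q k)
      ((ContinuousLinearMap.proj (R := ℝ) (φ := fun _ : ι => ℝ) k).comp
        (fderiv ℝ (D.xx ξ β) p)) p :=
    (ContinuousLinearMap.proj (R := ℝ) (φ := fun _ : ι => ℝ) k).hasFDerivAt.comp p
      (hasFDerivAt_xx h ξ β)
  have h3 := (h1.mul h2).fderiv
  have h4 := (deriv_isSol h ξ β v).1 k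
  have h5 : fderiv ℝ (fun q => D.wf ξ β q k) p v =
      p.1 k / 2 * fderiv ℝ (D.xx ξ β) p v k + D.xx ξ β p k * (v.1 k / 2) := by
    have h6 : (fun q => D.wf ξ β q k) = ((fun q : Pa ι => q.1 k / 2) *
      fun q : Pa ι => D.xx ξ β q k) := rfl
    rw [h6, h3]
    simp only [add_apply, smul_apply, ContinuousLinearMap.comp_apply,
      ContinuousLinearMap.coe_fst', ContinuousLinearMap.proj_apply, smul_eq_mul]
    ring
  rw [h5]
  unfold MM at h4
  linarith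

omit [DecidableEq ι] in
theorem contDiffAt_wf (h : D.Big m p) (ξ β : ι → ℝ) (k : ι) :
    ContDiffAt ℝ ((⊤ : ℕ∞) : WithTop ℕ∞) (fun q => D.wf ξ β q k) p := by
  have h1 : ContDiffAt ℝ ((⊤ : ℕ∞) : WithTop ℕ∞) (fun q : Pa ι => q.1 k / 2) p :=
    (((ContinuousLinearMap.proj (R := ℝ) (φ := fun _ : ι => ℝ) k).contDiff.comp
      contDiff_fst).div_const 2).contDiffAt
  exact h1.mul ((ContinuousLinearMap.proj (R := ℝ) (φ := fun _ : ι => ℝ) k).contDiff.contDiffAt.comp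
    p (contDiffAt_ss h ξ β).fst)

/-- The constant of the exponentially small terms. -/
def B0 (D : KapData ι) (Λ : ℝ) : ℝ := D.κ * (1 + nn ι * (1 + Λ + D.κ))

/-- The constant of `w`. -/
def W0 (D : KapData ι) (Λ : ℝ) : ℝ := (3 * nn ι + 1) * (1 + Λ + D.κ)

/-- The big constant. -/
def A0 (D : KapData ι) (Λ : ℝ) : ℝ :=
  16 * D.κ * D.W0 Λ + 4 * (3 * nn ι + 1) * D.B0 Λ + 16 * D.κ

omit [DecidableEq ι] in
theorem bb_le (h : D.Big m p) (hΛ : ∀ k, |p.2 k| ≤ Λ) (l : ι) :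
    D.bb ξ β p l ≤ D.B0 Λ * sz ξ β * Real.exp (-(p.1 l)) := by
  have h1 := (bounds0 (ξ := ξ) (β := β) h hΛ).1
  have hm := h.pos
  have hκ := D.κ_one
  have h0 : 0 ≤ Λ := (abs_nonneg _).trans (hΛ l)
  have hs := sz_nonneg ξ β
  have hn : 0 ≤ nn ι := nn_nonneg
  have h2 : ‖D.xx ξ β p‖ ≤ nn ι * (1 + Λ + D.κ) * sz ξ β := by
    refine h1.trans ?_
    rw [div_le_iff₀ (by linarith)]
    have : 0 ≤ nn ι * (1 + Λ + D.κ) * sz ξ β := by positivity
    nlinarith
  have h3 : ‖β‖ ≤ sz ξ β := le_add_of_nonneg_left (norm_nonneg _)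
  unfold bb B0
  have h4 := Real.exp_pos (-(p.1 l))
  calc D.κ * Real.exp (-(p.1 l)) * (‖β‖ + ‖D.xx ξ β p‖)
      ≤ D.κ * Real.exp (-(p.1 l)) * (sz ξ β + nn ι * (1 + Λ + D.κ) * sz ξ β) :=
        mul_le_mul_of_nonneg_left (add_le_add h3 h2) (by positivity)
    _ = _ := by ring

end KapData

end Vale.Agent.P273.H722
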