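import Vale.Agent.P273.H722.Theta2

/-!
P273, row POT-ASY [B], part 4: the final estimates, in the form wanted by LIM-G [C].
-/

noncomputable section

namespace Vale.Agent.P273.H722

open Finset Complex

variable {ι : Type} [Fintype ι] [Nonempty ι] [DecidableEq ι]

namespace KapData

variable {D : KapData ι} {m Λ : ℝ} {p : Pa ι} {ξ β : ι → ℝ}

omit [Nonempty ι] [DecidableEq ι] in
theorem rr_MM (p : Pa ι) (k : ι) : rr (MM p) k = rr p.1 k := by
  have h6 : ∀ l, (MM p l)⁻¹ = 2 * (p.1 l)⁻¹ := by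
    intro l; unfold MM; rw [inv_div, div_eq_mul_inv]
  unfold rr
  rw [h6, sum_congr rfl fun l _ => h6 l, ← mul_sum, mul_div_mul_left _ _ two_ne_zero]

omit [DecidableEq ι] in
/-- Elementary facts used below. -/
theorem facts (h : D.Big m p) (hΛ : ∀ k, |p.2 k| ≤ Λ) (ξ β : ι → ℝ) (l : ι) :
    0 ≤ D.W0 Λ * sz ξ β ∧ 0 ≤ D.B0 Λ * sz ξ β ∧ 0 ≤ D.κ * sz ξ β ∧
    |D.xx ξ β p l| ≤ 2 * (D.W0 Λ * sz ξ β) / p.1 l ∧
    D.bb ξ β p l ≤ (D.B0 Λ * sz ξ β) * (2 / (p.1 l) ^ 2) ∧ 8 ≤ p.1 l ∧ m ≤ p.1 l ∧ 8 ≤ m ∧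
    8 * D.κ ≤ m ∧ 1 ≤ D.κ ∧ 0 ≤ nn ι := by
  have hm := h.pos
  have hκ := D.κ_one
  have h0 : 0 ≤ Λ := (abs_nonneg _).trans (hΛ l)
  have hs := sz_nonneg ξ β
  have hn : 0 ≤ nn ι := nn_nonneg
  have hy : m ≤ p.1 l := h.le l
  have hy0 : 0 < p.1 l := by linarith
  have hW : 0 ≤ D.W0 Λ * sz ξ β := by unfold W0; positivity
  have hB : 0 ≤ D.B0 Λ * sz ξ β := by unfold B0; positivity
  refine ⟨hW, hB, by positivity, ?_, ?_, by linarith, hy, hm, h.kap.le, hκ, hn⟩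
  · have h1 := (bounds0 (ξ := ξ) (β := β) h hΛ).2.2.1 l
    unfold wf at h1
    rw [abs_mul, abs_of_pos (by positivity : 0 < p.1 l / 2)] at h1
    rw [le_div_iff₀ hy0]
    unfold W0
    nlinarith
  · refine (bb_le h hΛ l).trans ?_
    exact mul_le_mul_of_nonneg_left (exp_neg_le hy0) hB

/-- The derivative in a direction `v` concentrated at `l`. -/
theorem core (h : D.Big m p) (ξ β : ι → ℝ) {v : Pa ι} {l : ι} {t t' : ℝ}
    (hv : ‖dep p v‖ ≤ Real.exp (-(p.1 l)))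
    (h1 : ∀ k, β k * v.2 k / (2 * Real.pi) + v.1 k / 2 * D.xx ξ β p k = if k = l then t else 0)
    (h2 : ∀ k, v.1 k / 2 * D.xx ξ β p k = if k = l then t' else 0) :
    |fderiv ℝ (D.CC ξ β) p v| ≤ 2 * m * |t| / p.1 l + 2 * nn ι * D.bb ξ β p l ∧
    |fderiv ℝ (D.CC ξ β) p v - rr p.1 l * t| ≤
      8 * D.κ * |t| / p.1 l + (nn ι + 1) * D.bb ξ β p l ∧
    ∀ k, |fderiv ℝ (fun q => D.wf ξ β q k) p v -
      (fderiv ℝ (D.CC ξ β) p v + if k = l then t' - t else 0)| ≤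
      8 * D.κ * |t| / p.1 l + (nn ι + 1) * D.bb ξ β p l := by
  have hhk : ∀ k, D.hh ξ β p v k = (if k = l then t else 0) -
      (RG β (D.kk p v) k + RK (D.kk p v) (D.xx ξ β p) k) := by
    intro k
    rw [← h1 k]
    unfold hh
    ring
  have habs : ∀ k, |D.hh ξ β p v k| ≤ (if k = l then |t| else 0) + D.bb ξ β p l := by
    intro k
    rw [hhk k]
    refine (abs_sub _ _).trans (add_le_add ?_ (small_le h ξ β hv k))
    by_cases hk : k = l
    · simp [hk]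
    · simp [hk]
  have hb0 := D.bb_nonneg ξ β p l
  have hm0 : 0 < m := by linarith [h.pos]
  have hML : MM p l = p.1 l / 2 := rfl
  obtain ⟨s1, -, s3, s4⟩ := (deriv_isSol h ξ β v).single (l := l)
    (a := |t|) h.hM h.hm hm0 h.hK h.kap.le hb0 habs
  have hcard : (Fintype.card ι : ℝ) = nn ι := rfl
  rw [hcard] at s1 s3 s4
  rw [hML] at s1 s3 s4
  have e1 : m * (|t| / (p.1 l / 2)) = 2 * m * |t| / p.1 l := by
    rw [div_div_eq_mul_div]; ring
  have e2 : 4 * D.κ * (|t| / (p.1 l / 2)) = 8 * D.κ * |t| / p.1 l := by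
    rw [div_div_eq_mul_div]; ring
  rw [e1] at s1
  rw [e2] at s3 s4
  refine ⟨s1, ?_, fun k => ?_⟩
  · have hsum : |∑ k, rr (MM p) k * D.hh ξ β p v k - rr p.1 l * t| ≤ D.bb ξ β p l := by
      have h1 : ∑ k, rr (MM p) k * D.hh ξ β p v k - rr p.1 l * t =
          - ∑ k, rr (MM p) k *
            (RG β (D.kk p v) k + RK (D.kk p v) (D.xx ξ β p) k) := by
        have h2 : rr p.1 l * t = ∑ k, rr (MM p) k * (if k = l then t else 0) := by
          simp [rr_MM]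
        rw [h2, ← sum_sub_distrib, ← sum_neg_distrib]
        refine sum_congr rfl fun k _ => ?_
        rw [hhk]
        ring
      rw [h1, abs_neg]
      exact abs_sum_rr_le h.M_pos _ (small_le h ξ β hv)
    have h1 := abs_add_le (fderiv ℝ (D.CC ξ β) p v -
      ∑ k, rr (MM p) k * D.hh ξ β p v k)
      (∑ k, rr (MM p) k * D.hh ξ β p v k - rr p.1 l * t)
    rw [sub_add_sub_cancel] at h1
    refine h1.trans ((add_le_add s3 hsum).trans (le_of_eq ?_))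
    ring
  · have h3 : fderiv ℝ (fun q => D.wf ξ β q k) p v -
        (fderiv ℝ (D.CC ξ β) p v + if k = l then t' - t else 0) =
        (RG β (D.kk p v) k + RK (D.kk p v) (D.xx ξ β p) k) +
          D.KK p (fderiv ℝ (D.xx ξ β) p v) k := by
      rw [fderiv_wf h, h2 k, hhk k]
      by_cases hk : k = l
      · simp only [hk, if_true]; ring
      · simp only [hk, if_false]; ring
    rw [h3]
    refine (abs_add_le _ _).trans ((add_le_add (small_le h ξ β hv k)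
      ((abs_K_le h.hK _ k).trans s4)).trans (le_of_eq ?_))
    ring

/-- `y l`-derivatives, raw form. -/
theorem core_y (h : D.Big m p) (ξ β : ι → ℝ) (l : ι) :
    |fderiv ℝ (D.CC ξ β) p (ey l)| ≤
      2 * m * |D.xx ξ β p l / 2| / p.1 l + 2 * nn ι * D.bb ξ β p l ∧
    |fderiv ℝ (D.CC ξ β) p (ey l) - rr p.1 l * (D.xx ξ β p l / 2)| ≤
      8 * D.κ * |D.xx ξ β p l / 2| / p.1 l + (nn ι + 1) * D.bb ξ β p l ∧
    ∀ k, |fderiv ℝ (fun q => D.wf ξ β q k) p (ey l) - fderiv ℝ (D.CC ξ β) p (ey l)| ≤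
      8 * D.κ * |D.xx ξ β p l / 2| / p.1 l + (nn ι + 1) * D.bb ξ β p l := by
  have h2 : ∀ k, (ey l : Pa ι).1 k / 2 * D.xx ξ β p k =
      if k = l then D.xx ξ β p l / 2 else 0 := by
    intro k
    by_cases hk : k = l
    · subst hk; simp [ey]; ring
    · simp [ey, hk]
  have h1 : ∀ k, β k * (ey l : Pa ι).2 k / (2 * Real.pi) + (ey l : Pa ι).1 k / 2 *
      D.xx ξ β p k = if k = l then D.xx ξ β p l / 2 else 0 := by
    intro k
    rw [h2 k]
    simp [ey]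
  obtain ⟨a1, a2, a3⟩ := core h ξ β (norm_dep_ey p l) h1 h2
  refine ⟨a1, a2, fun k => ?_⟩
  have := a3 k
  rwa [sub_self, ite_self, add_zero] at this

/-- `al l`-derivatives, raw form. -/
theorem core_a (h : D.Big m p) (ξ β : ι → ℝ) (l : ι) :
    |fderiv ℝ (D.CC ξ β) p (ea l)| ≤
      2 * m * |β l / (2 * Real.pi)| / p.1 l + 2 * nn ι * D.bb ξ β p l ∧
    |fderiv ℝ (D.CC ξ β) p (ea l) - rr p.1 l * (β l / (2 * Real.pi))| ≤
      8 * D.κ * |β l / (2 * Real.pi)| / p.1 l + (nn ι + 1) * D.bb ξ β p l ∧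
    ∀ k, |fderiv ℝ (fun q => D.wf ξ β q k) p (ea l) - (fderiv ℝ (D.CC ξ β) p (ea l) +
      if k = l then 0 - β l / (2 * Real.pi) else 0)| ≤
      8 * D.κ * |β l / (2 * Real.pi)| / p.1 l + (nn ι + 1) * D.bb ξ β p l := by
  have h2 : ∀ k, (ea l : Pa ι).1 k / 2 * D.xx ξ β p k = if k = l then 0 else 0 := by
    intro k
    simp [ea]
  have h1 : ∀ k, β k * (ea l : Pa ι).2 k / (2 * Real.pi) + (ea l : Pa ι).1 k / 2 *
      D.xx ξ β p k = if k = l then β l / (2 * Real.pi) else 0 := by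
    intro k
    rw [h2 k]
    by_cases hk : k = l
    · subst hk; simp [ea]
    · simp [ea, hk]
  exact core h ξ β (norm_dep_ea p l) h1 h2

section numeric

/-- Numerical lemma. -/
theorem num1 {x W B b m y κ n S : ℝ} (hx : x ≤ 2 * W / y) (hb : b ≤ B * (2 / y ^ 2))
    (hy : 8 ≤ y) (hmy : m ≤ y) (hm : 8 ≤ m) (hκm : 8 * κ ≤ m) (hκ : 1 ≤ κ) (hn : 0 ≤ n)
    (hW : 0 ≤ W) (hB : 0 ≤ B) (hS : 0 ≤ S) (hx0 : 0 ≤ x) (hb0 : 0 ≤ b) :
    2 * m * (x / 2) / y + 2 * n * b ≤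
      (16 * κ * W + 4 * (3 * n + 1) * B + 16 * S) * (m / y ^ 2) ∧
    2 * m * (x / 2) / y + 2 * n * b + (8 * κ * (x / 2) / y + (n + 1) * b) ≤
      (16 * κ * W + 4 * (3 * n + 1) * B + 16 * S) * (m / y ^ 2) ∧
    y * (8 * κ * (x / 2) / y + (n + 1) * b) ≤
      (16 * κ * W + 4 * (3 * n + 1) * B + 16 * S) / y ∧
    y * (2 * (8 * κ * (x / 2) / y + (n + 1) * b)) ≤
      (16 * κ * W + 4 * (3 * n + 1) * B + 16 * S) / y := by
  have hy0 : 0 < y := by linarith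
  have e1 : 2 * m * (x / 2) / y ≤ 2 * W * (m / y ^ 2) := by
    have h1 : m * x / y ≤ m * (2 * W / y) / y :=
      div_le_div_of_nonneg_right (mul_le_mul_of_nonneg_left hx (by linarith)) hy0.le
    have h2 : m * (2 * W / y) / y = 2 * W * (m / y ^ 2) := by field_simp
    have h3 : 2 * m * (x / 2) / y = m * x / y := by ring
    rw [h3, ← h2]; exact h1
  have hq : 0 ≤ m / y ^ 2 := by positivity
  have hq1 : 0 < 1 / y ^ 2 := by positivity
  have e2 : b ≤ B / 4 * (m / y ^ 2) := by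
    refine hb.trans ?_
    have h1 : B * (2 / y ^ 2) = B * 2 * (1 / y ^ 2) := by ring
    have h2 : B / 4 * (m / y ^ 2) = B / 4 * m * (1 / y ^ 2) := by ring
    rw [h1, h2]
    refine mul_le_mul_of_nonneg_right ?_ hq1.le
    nlinarith
  have e3 : 8 * κ * (x / 2) / y ≤ W * (m / y ^ 2) := by
    have h1 : 4 * κ * x / y ≤ 4 * κ * (2 * W / y) / y :=
      div_le_div_of_nonneg_right (mul_le_mul_of_nonneg_left hx (by linarith)) hy0.le
    have h2 : 4 * κ * (2 * W / y) / y = (8 * κ) * (W / y ^ 2) := by field_simp; ring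
    have h3 : 8 * κ * (x / 2) / y = 4 * κ * x / y := by ring
    have h4 : (8 * κ) * (W / y ^ 2) ≤ m * (W / y ^ 2) :=
      mul_le_mul_of_nonneg_right hκm (by positivity)
    have h5 : m * (W / y ^ 2) = W * (m / y ^ 2) := by ring
    rw [h3]; linarith
  have e4 : y * (8 * κ * (x / 2) / y) ≤ 8 * κ * W / y := by
    have h1 : y * (8 * κ * (x / 2) / y) = 4 * κ * x := by field_simp; ring
    have h2 : 4 * κ * x ≤ 4 * κ * (2 * W / y) := mul_le_mul_of_nonneg_left hx (by linarith)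
    have h3 : 4 * κ * (2 * W / y) = 8 * κ * W / y := by ring
    rw [h1]; linarith
  have e5 : y * b ≤ 2 * B / y := by
    calc y * b ≤ y * (B * (2 / y ^ 2)) := mul_le_mul_of_nonneg_left hb hy0.le
      _ = 2 * B / y := by field_simp
  have hκW : 0 ≤ (κ - 1) * W := mul_nonneg (by linarith) hW
  have hnB : 0 ≤ n * B := mul_nonneg hn hB
  refine ⟨?_, ?_, ?_, ?_⟩
  · have h1 : 2 * n * b ≤ 2 * n * (B / 4 * (m / y ^ 2)) :=
      mul_le_mul_of_nonneg_left e2 (by positivity)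
    have h2 : 0 ≤ (16 * κ * W + 4 * (3 * n + 1) * B + 16 * S - 2 * W - n * B / 2) *
        (m / y ^ 2) := mul_nonneg (by linarith) hq
    linarith
  · have h1 : (3 * n + 1) * b ≤ (3 * n + 1) * (B / 4 * (m / y ^ 2)) :=
      mul_le_mul_of_nonneg_left e2 (by positivity)
    have h2 : 0 ≤ (16 * κ * W + 4 * (3 * n + 1) * B + 16 * S - 3 * W -
        (3 * n + 1) * (B / 4)) * (m / y ^ 2) := mul_nonneg (by linarith) hq
    linarith
  · have h1 : (n + 1) * (y * b) ≤ (n + 1) * (2 * B / y) :=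
      mul_le_mul_of_nonneg_left e5 (by linarith)
    have h2 : y * (8 * κ * (x / 2) / y + (n + 1) * b) ≤
        8 * κ * W / y + (n + 1) * (2 * B / y) := by
      linarith
    have h3 : 8 * κ * W / y + (n + 1) * (2 * B / y) =
        (8 * κ * W + (n + 1) * (2 * B)) / y := by ring
    rw [h3] at h2
    refine h2.trans (div_le_div_of_nonneg_right ?_ hy0.le)
    linarith
  · have h1 : (n + 1) * (y * b) ≤ (n + 1) * (2 * B / y) :=
      mul_le_mul_of_nonneg_left e5 (by linarith)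
    have h2 : y * (2 * (8 * κ * (x / 2) / y + (n + 1) * b)) ≤
        2 * (8 * κ * W / y + (n + 1) * (2 * B / y)) := by
      linarith
    have h3 : 2 * (8 * κ * W / y + (n + 1) * (2 * B / y)) =
        (16 * κ * W + (n + 1) * (4 * B)) / y := by ring
    rw [h3] at h2
    refine h2.trans (div_le_div_of_nonneg_right ?_ hy0.le)
    linarith

end numeric

/-- **`y l`-derivatives.** -/
theorem bounds_y (h : D.Big m p) (hΛ : ∀ k, |p.2 k| ≤ Λ) (ξ β : ι → ℝ) (l : ι) :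
    |fderiv ℝ (D.CC ξ β) p (ey l)| ≤ D.A0 Λ * sz ξ β * (m / (p.1 l) ^ 2) ∧
    (∀ k, |fderiv ℝ (fun q => D.wf ξ β q k) p (ey l)| ≤ D.A0 Λ * sz ξ β * (m / (p.1 l) ^ 2)) ∧
    |p.1 l * fderiv ℝ (D.CC ξ β) p (ey l) - rr p.1 l * D.wf ξ β p l| ≤
      D.A0 Λ * sz ξ β / p.1 l ∧
    ∀ k, |p.1 l * fderiv ℝ (fun q => D.wf ξ β q k) p (ey l) - rr p.1 l * D.wf ξ β p l| ≤
      D.A0 Λ * sz ξ β / p.1 l := by
  obtain ⟨hW, hB, hS, hx, hb, hy8, hmy, hm8, h8, hκ, hn⟩ := facts h hΛ ξ β l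
  have hb0 := D.bb_nonneg ξ β p l
  obtain ⟨n1, n2, n3, n4⟩ := num1 hx hb hy8 hmy hm8 h8 hκ hn hW hB hS (abs_nonneg _) hb0
  have hA : D.A0 Λ * sz ξ β = 16 * D.κ * (D.W0 Λ * sz ξ β) +
      4 * (3 * nn ι + 1) * (D.B0 Λ * sz ξ β) + 16 * (D.κ * sz ξ β) := by
    unfold A0; ring
  rw [← hA] at n1 n2 n3 n4
  obtain ⟨s1, s2, s3⟩ := core_y h ξ β l
  have hx2 : |D.xx ξ β p l / 2| = |D.xx ξ β p l| / 2 := by rw [abs_div, abs_two]
  rw [hx2] at s1 s2 s3
  have hy0 : 0 < p.1 l := by linarith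
  have hw : p.1 l * (D.xx ξ β p l / 2) = D.wf ξ β p l := by
    unfold wf; ring
  refine ⟨s1.trans n1, fun k => ?_, ?_, fun k => ?_⟩
  · have h1 : fderiv ℝ (fun q => D.wf ξ β q k) p (ey l) = fderiv ℝ (D.CC ξ β) p (ey l) +
      (fderiv ℝ (fun q => D.wf ξ β q k) p (ey l) - fderiv ℝ (D.CC ξ β) p (ey l)) := by ring
    rw [h1]
    exact (abs_add_le _ _).trans ((add_le_add s1 (s3 k)).trans n2)
  · have h1 : p.1 l * fderiv ℝ (D.CC ξ β) p (ey l) - rr p.1 l * D.wf ξ β p l =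
        p.1 l * (fderiv ℝ (D.CC ξ β) p (ey l) - rr p.1 l * (D.xx ξ β p l / 2)) := by
      rw [← hw]; ring
    rw [h1, abs_mul, abs_of_pos hy0]
    exact (mul_le_mul_of_nonneg_left s2 hy0.le).trans n3
  · have h1 : p.1 l * fderiv ℝ (fun q => D.wf ξ β q k) p (ey l) - rr p.1 l * D.wf ξ β p l =
        p.1 l * ((fderiv ℝ (fun q => D.wf ξ β q k) p (ey l) - fderiv ℝ (D.CC ξ β) p (ey l)) +
        (fderiv ℝ (D.CC ξ β) p (ey l) - rr p.1 l * (D.xx ξ β p l / 2))) := by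
      rw [← hw]; ring
    rw [h1, abs_mul, abs_of_pos hy0]
    refine (mul_le_mul_of_nonneg_left ((abs_add_le _ _).trans (add_le_add (s3 k) s2))
      hy0.le).trans (le_trans (le_of_eq ?_) n4)
    ring

end KapData

end Vale.Agent.P273.H722
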