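import Vale.Agent.P273.H722.UCore2
import Vale.Agent.P273.H908.IdF
import Vale.Agent.P273.H857.All
import Vale.Agent.P273.H580.TheStms
import Vale.Agent.P273.H630.VertIn

/-!
# P273, LIM-D (U), cores: the instance at the theta configuration

Base `p = (y, α)`, half differences `dT p k = (1/16) exp ((- y_k + i α_k) / 2)`, so that
`H828.th (dT p) = rootsL y α` and `sqd dT p = eps0 y α`.
-/

noncomputable section

namespace Vale.Agent.P273.H722

open Set Filter Topology Complex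
open scoped ContDiff
open Vale.Agent.P273.H214 (Bs ff FlatOn)
open Vale.Agent.P273.H517
open Vale.Agent.P273.H580
open Vale.Agent.P273.H630 (D0 I0 af0 eps0 ysh cc E3 eps0_eq)
open Vale.Agent.P273.H562 (rootsL bt xe)
open Vale.Agent.P273.H95 (IsCl)

/-- half differences -/
def dT (p : Pa (Fin 3)) : Fin 3 → ℂ := fun k =>
  (1 / 16 : ℂ) * exp ((-(p.1 k : ℂ) + (p.2 k : ℂ) * I) / 2)

theorem th_dT (p : Pa (Fin 3)) : H828.th (dT p) = rootsL p.1 p.2 := rfl

theorem sqd_dT (p : Pa (Fin 3)) : sqd dT p = eps0 p.1 p.2 := by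
  funext k
  unfold sqd dT eps0
  rw [mul_pow, ← Complex.exp_nat_mul]
  congr 2
  push_cast
  ring

/-- the shifted base -/
def shP (p : Pa (Fin 3)) : Pa (Fin 3) := (ysh p.1, p.2)

theorem ep_shP (p : Pa (Fin 3)) : ep (shP p) = eps0 p.1 p.2 := (eps0_eq _ _).symm

/-- an open set of bases -/
def PT (N : ℝ) : Set (Pa (Fin 3)) :=
  {p | ∀ k, N < p.1 k ∧ -(3 * Real.pi) < p.2 k ∧ p.2 k < Real.pi}

theorem isOpen_PT (N : ℝ) : IsOpen (PT N) := by
  have h : PT N = ⋂ k, {p : Pa (Fin 3) | N < p.1 k ∧ -(3 * Real.pi) < p.2 k ∧ p.2 k < Real.pi} := by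
    ext p
    simp [PT]
  rw [h]
  refine isOpen_iInter_of_finite fun k => ?_
  have h1 : Continuous fun p : Pa (Fin 3) => p.1 k := (continuous_apply k).comp continuous_fst
  have h2 : Continuous fun p : Pa (Fin 3) => p.2 k := (continuous_apply k).comp continuous_snd
  exact (isOpen_lt continuous_const h1).inter
    ((isOpen_lt continuous_const h2).inter (isOpen_lt h2 continuous_const))

/-- a length beyond which everything is defined -/
def NT : ℝ := max 6 (Classical.choose H630.exists_N0)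

theorem NT_ge : 6 ≤ NT := le_max_left _ _

theorem NT_spec {p : Pa (Fin 3)} (hp : p ∈ PT NT) :
    ‖eps0 p.1 p.2‖ < D0.ρ ∧ ‖eps0 p.1 p.2‖ < I0.rad ∧ D0.Big (⨅ k, ysh p.1 k) (shP p) :=
  (Classical.choose_spec H630.exists_N0).2 p.1 p.2 fun k =>
    (le_max_right _ _).trans (hp k).1.le

theorem norm_dT (p : Pa (Fin 3)) (k : Fin 3) : ‖dT p k‖ = 1 / 16 * Real.exp (-(p.1 k) / 2) := by
  unfold dT
  rw [norm_mul, norm_exp]
  congr 1
  · norm_num
  · congr 1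
    simp

theorem norm_dT_lt {p : Pa (Fin 3)} (hp : p ∈ PT NT) (k : Fin 3) : ‖dT p k‖ < 1 / 128 := by
  rw [norm_dT]
  have h1 : 6 < p.1 k := NT_ge.trans_lt (hp k).1
  have h2 : Real.exp (-(p.1 k) / 2) < Real.exp (-3) := Real.exp_lt_exp.2 (by linarith)
  have h3 : Real.exp (-3) < 1 / 8 := by
    have h4 : (2.7 : ℝ) < Real.exp 1 := lt_trans (by norm_num) Real.exp_one_gt_d9
    have h5 : Real.exp 3 = Real.exp 1 ^ 3 := by rw [← Real.exp_nat_mul]; norm_num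
    have h6 : (8 : ℝ) < Real.exp 3 := by
      rw [h5]
      calc (8 : ℝ) < 2.7 ^ 3 := by norm_num
        _ < Real.exp 1 ^ 3 := pow_lt_pow_left₀ h4 (by norm_num) (by norm_num)
    rw [Real.exp_neg, ← one_div]
    exact one_div_lt_one_div_of_lt (by norm_num) h6
  linarith

theorem contDiff_dT : ContDiff ℝ 2 dT := by
  refine contDiff_pi.2 fun k => ?_
  have h1 : ContDiff ℝ 2 fun p : Pa (Fin 3) => ((p.1 k : ℝ) : ℂ) :=
    ofRealCLM.contDiff.comp ((ContinuousLinearMap.proj (R := ℝ)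
      (φ := fun _ : Fin 3 => ℝ) k).contDiff.comp contDiff_fst)
  have h2 : ContDiff ℝ 2 fun p : Pa (Fin 3) => ((p.2 k : ℝ) : ℂ) :=
    ofRealCLM.contDiff.comp ((ContinuousLinearMap.proj (R := ℝ)
      (φ := fun _ : Fin 3 => ℝ) k).contDiff.comp contDiff_snd)
  exact contDiff_const.mul (((h1.neg.add (h2.mul contDiff_const)).div_const 2).cexp)

/-- the half differences are on the correct side -/
theorem od_dT {p : Pa (Fin 3)} (hp : p ∈ PT NT) (k : Fin 3) (h : (dT p k).re = 0) :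
    (dT p k).im < 0 := by
  set r : ℝ := 1 / 16 * Real.exp (-(p.1 k) / 2) with hr
  have hr0 : 0 < r := by positivity
  have e : dT p k = (r : ℂ) * exp (((p.2 k / 2 : ℝ) : ℂ) * I) := by
    unfold dT
    rw [hr]
    push_cast
    rw [mul_assoc, ← Complex.exp_add]
    congr 2
    ring
  have hre : (dT p k).re = r * Real.cos (p.2 k / 2) := by
    rw [e, re_ofReal_mul, exp_ofReal_mul_I_re]
  have him : (dT p k).im = r * Real.sin (p.2 k / 2) := by
    rw [e, im_ofReal_mul, exp_ofReal_mul_I_im]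
  rw [hre] at h
  have hc : Real.cos (p.2 k / 2) = 0 := by
    rcases mul_eq_zero.1 h with h1 | h1
    · exact absurd h1 hr0.ne'
    · exact h1
  obtain ⟨_, h1, h2⟩ := hp k
  have hpi := Real.pi_pos
  rw [him]
  refine mul_neg_of_pos_of_neg hr0 ?_
  have h3 : p.2 k / 2 ≤ -(Real.pi / 2) := by
    by_contra h3
    push Not at h3
    have := Real.cos_pos_of_mem_Ioo ⟨h3, by linarith⟩
    linarith
  have h4 : -Real.pi < p.2 k / 2 := by
    by_contra h4
    push Not at h4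
    have h5 : Real.cos (p.2 k / 2 + 2 * Real.pi) < 0 :=
      Real.cos_neg_of_pi_div_two_lt_of_lt (by linarith) (by linarith)
    rw [Real.cos_add_two_pi] at h5
    linarith
  exact Real.sin_neg_of_neg_of_neg_pi_lt (by linarith) h4

/-- the real centres -/
def eR : Fin 3 → ℝ := ![3 / 2, 7 / 2, 11 / 2]

theorem spR : H908.SpR eR := by
  constructor
  · show (3 / 2 : ℝ) + 2 ≤ 7 / 2
    norm_num
  · show (7 / 2 : ℝ) + 2 ≤ 11 / 2
    norm_num

theorem eC_eR : H908.eC eR = ct := by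
  rw [ct_val]
  funext k
  fin_cases k
  · show ((3 / 2 : ℝ) : ℂ) = 3 / 2
    push_cast
    rfl
  · show ((7 / 2 : ℝ) : ℂ) = 7 / 2
    push_cast
    rfl
  · show ((11 / 2 : ℝ) : ℂ) = 11 / 2
    push_cast
    rfl

theorem thp_eR (d : Fin 3 → ℂ) : H908.thp eR d = H828.th d := by
  have h0 : ((eR 0 : ℝ) : ℂ) = 3 / 2 := by
    show ((3 / 2 : ℝ) : ℂ) = 3 / 2
    push_cast
    rfl
  have h1 : ((eR 1 : ℝ) : ℂ) = 7 / 2 := by
    show ((7 / 2 : ℝ) : ℂ) = 7 / 2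
    push_cast
    rfl
  have h2 : ((eR 2 : ℝ) : ℂ) = 11 / 2 := by
    show ((11 / 2 : ℝ) : ℂ) = 11 / 2
    push_cast
    rfl
  unfold H908.thp H828.th
  rw [h0, h1, h2]

/-- the roots are in the domain -/
theorem mem_XO {p : Pa (Fin 3)} (hp : p ∈ PT NT) : H828.th (dT p) ∈ XO := by
  intro i j hij hre
  have h0 := norm_dT_lt hp
  have hr : ∀ k, |(dT p k).re| < 1 / 128 := fun k => (abs_re_le_norm _).trans_lt (h0 k)
  have a0 := abs_lt.1 (hr 0)
  have a1 := abs_lt.1 (hr 1)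
  have a2 := abs_lt.1 (hr 2)
  have o := od_dT hp
  revert hre hij
  fin_cases i <;> fin_cases j <;> intro hij hre <;>
    first
    | exact absurd hij (by decide)
    | (simp [H828.th] at hre ⊢; exact o _ (by linarith))
    | (exfalso; simp [H828.th] at hre; linarith)

/-! ### the data of the class `ξ` -/

/-- the coefficients -/
def aT (ξ : Fin 6 → ℝ) (p : Pa (Fin 3)) : Fin 2 → ℂ := af0 (eps0 p.1 p.2) (cc ξ p.1 p.2)

/-- the slopes -/
def xT (ξ : Fin 6 → ℝ) (p : Pa (Fin 3)) : Fin 3 → ℝ := D0.xx (xe ξ) (bt ξ) (shP p)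

/-- the value at infinity -/
def CT (ξ : Fin 6 → ℝ) (p : Pa (Fin 3)) : ℝ := D0.CC (xe ξ) (bt ξ) (shP p)

theorem cc_apply (ξ : Fin 6 → ℝ) (p : Pa (Fin 3)) (k : Fin 3) :
    cc ξ p.1 p.2 k = (xT ξ p k : ℂ) + ib (bt ξ) k := rfl

theorem cc_apply' (ξ : Fin 6 → ℝ) (p : Pa (Fin 3)) (k : Fin 3) :
    cc ξ p.1 p.2 k = (xT ξ p k : ℂ) + ((bt ξ k / Real.pi : ℝ) : ℂ) * I := by
  rw [cc_apply, ib]
  push_cast
  ring

theorem contDiff_shP {n : WithTop ℕ∞} : ContDiff ℝ n shP := by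
  refine ContDiff.prodMk ?_ contDiff_snd
  refine contDiff_pi.2 fun k => ?_
  exact ((ContinuousLinearMap.proj (R := ℝ) (φ := fun _ : Fin 3 => ℝ) k).contDiff.comp
    contDiff_fst).add contDiff_const

variable {ξ : Fin 6 → ℝ} {p : Pa (Fin 3)}

theorem contDiffAt_sT (ξ : Fin 6 → ℝ) (hp : p ∈ PT NT) :
    ContDiffAt ℝ 2 (fun p => D0.ss (xe ξ) (bt ξ) (shP p)) p :=
  ((KapData.contDiffAt_ss (NT_spec hp).2.2 (xe ξ) (bt ξ)).comp p
    contDiff_shP.contDiffAt).of_le (WithTop.coe_le_coe.2 (le_top : (2 : ℕ∞) ≤ ⊤))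

theorem contDiffAt_xT (ξ : Fin 6 → ℝ) (hp : p ∈ PT NT) : ContDiffAt ℝ 2 (xT ξ) p :=
  (contDiffAt_sT ξ hp).fst

theorem contDiffAt_CT (ξ : Fin 6 → ℝ) (hp : p ∈ PT NT) : ContDiffAt ℝ 2 (CT ξ) p :=
  (contDiffAt_sT ξ hp).snd

theorem contDiffAt_cc (ξ : Fin 6 → ℝ) (hp : p ∈ PT NT) :
    ContDiffAt ℝ 2 (fun p : Pa (Fin 3) => cc ξ p.1 p.2) p := by
  refine contDiffAt_pi.2 fun k => ?_
  have h1 : ContDiffAt ℝ 2 (fun p => ((xT ξ p k : ℝ) : ℂ)) p :=
    ofRealCLM.contDiff.contDiffAt.comp p (contDiffAt_pi.1 (contDiffAt_xT ξ hp) k)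
  exact h1.add contDiffAt_const

theorem contDiffAt_eps0 (p : Pa (Fin 3)) :
    ContDiffAt ℝ 2 (fun p : Pa (Fin 3) => eps0 p.1 p.2) p := by
  have h : (fun p : Pa (Fin 3) => eps0 p.1 p.2) = fun p => ep (shP p) :=
    funext fun p => (ep_shP p).symm
  rw [h]
  exact (contDiff_ep.comp contDiff_shP).contDiffAt

theorem contDiffAt_af0 (hp : p ∈ PT NT) :
    ContDiffAt ℝ 2 (fun p : Pa (Fin 3) => af0 (eps0 p.1 p.2)) p := by
  have h1 := I0.mem_Om (NT_spec hp).2.1.le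
  exact ContDiffAt.comp (g := af0) (f := fun p : Pa (Fin 3) => eps0 p.1 p.2) p
    (I0.contDiffAt_af h1.1 h1.2) (contDiffAt_eps0 p)

theorem contDiffAt_aT (ξ : Fin 6 → ℝ) (hp : p ∈ PT NT) : ContDiffAt ℝ 2 (aT ξ) p := by
  have h1 : ContDiffAt ℝ 2 (fun p : Pa (Fin 3) =>
      (ContinuousLinearMap.restrictScalarsL ℂ E3 (Fin 2 → ℂ) ℝ ℝ) (af0 (eps0 p.1 p.2))) p :=
    (ContinuousLinearMap.restrictScalarsL ℂ E3 (Fin 2 → ℂ) ℝ ℝ).contDiff.contDiffAt.comp p
      (contDiffAt_af0 hp)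
  exact h1.clm_apply (contDiffAt_cc ξ hp)

theorem sum_ccT (hξ : IsCl ξ) (hp : p ∈ PT NT) : ∑ k, cc ξ p.1 p.2 k = 0 := by
  have hsum := (KapData.isSol (NT_spec hp).2.2 (xe ξ) (bt ξ)).2
  have hb := H630.sum_bt hξ
  simp only [cc_apply']
  rw [Finset.sum_add_distrib, ← ofReal_sum, ← Finset.sum_mul, ← ofReal_sum, ← Finset.sum_div, hb]
  have h1 : ∑ k, xT ξ p k = 0 := hsum
  rw [h1]
  simp

/-- **the input of the identification** (908) -/
def IdF : Prop := ∀ ξ : Fin 6 → ℝ, IsCl ξ → ∀ p ∈ PT NT,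
  (∀ u v, AX ξ (rootsL p.1 p.2) (u, v) = (aT ξ p 0 * u + aT ξ p 1 * v).re) ∧
    cX ξ (rootsL p.1 p.2) = CT ξ p

/-- the input holds (908) -/
theorem idF : IdF := fun _ hξ _ hp =>
  ⟨fun u v => H908.AX_theta' hξ (NT_spec hp).2.2 (NT_spec hp).1 (fun k => (hp k).2) u v,
    H908.cX_theta' hξ (NT_spec hp).2.2 (NT_spec hp).1 fun k => (hp k).2⟩

/-- **the data on the cores at theta** -/
theorem coreIn_theta (hξ : IsCl ξ) :
    CoreIn XO (eta (PQ theStms) (AX ξ) (cX ξ)) (AX ξ) (PT NT) dT (aT ξ) (xT ξ) (bt ξ) (CT ξ) where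
  flat := (flatX theStms (isCl_alt hξ)).flatOn
  op := isOpen_PT _
  sd _ _ := contDiff_dT.contDiffAt
  mem _ hp := mem_XO hp
  sm p hp k := by
    show ‖dT p k ^ 2‖ < (1 / 128) ^ 2
    rw [norm_pow]
    exact pow_lt_pow_left₀ (norm_dT_lt hp k) (norm_nonneg _) two_ne_zero
  sa _ hp := contDiffAt_aT ξ hp
  sc _ hp := contDiffAt_xT ξ hp
  sC _ hp := contDiffAt_CT ξ hp
  hA p hp := (idF ξ hξ p hp).1
  res p hp l := by
    rw [sqd_dT, ← cc_apply']
    exact H630.af_cm_theta H630.sep_ctr H630.ell0 (NT_spec hp).1 (sum_ccT hξ hp) l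

/-- the statements of 857 -/
theorem stms908 : H908.Stms where
  hol := H857.stmHOL
  root := H857.stmROOT
  flipR := H857.stmFLIPR
  flipL := H857.stmFLIPL
  inf := H857.stmINF

theorem hlg (z : ℂ) (hz : 0 < z.im) :
    HasDerivAt H598.lg z⁻¹ z ∧ (H598.lg z).re = Real.log ‖z‖ := by
  refine ⟨H598.hasDerivAt_lg (Or.inl hz), ?_⟩
  unfold H598.lg
  rw [add_re, log_re, norm_mul]
  simp

theorem P_theta {m : ℕ} (hm : m ≤ 1) (hp : p ∈ PT NT) {x : ℂ} (hx : 1 < x.im) :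
    H857.P m ∅ (H828.th (dT p)) x =
      ∑ l, cm ct (sqd dT p) m l * H598.lg (x - ct l) + MM ct (sqd dT p) m x := by
  have h0 : ∀ k, dT p k ≠ 0 := fun k h => by
    have := od_dT hp k (by rw [h]; rfl)
    rw [h] at this
    simp at this
  have h1 := H908.P_core stms908 spR (d := dT p) (norm_dT_lt hp) h0 hm (x := x)
    (fun k => Or.inr (by linarith))
  rw [thp_eR] at h1
  rw [h1]
  unfold H908.QQ
  rw [eC_eR]
  rfl

/-- **the flat form on the cores at theta** -/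
theorem hE_theta (hξ : IsCl ξ) :
    ∀ p ∈ Om (PT NT), om (etaX theStms ξ) dT (bt ξ) p =
      fderiv ℝ (FF dT (aT ξ) (xT ξ) (CT ξ)) p := by
  have h := coreIn_theta hξ
  refine core_eq h (hZ_of_pot (flatX theStms (isCl_alt hξ)) h
    (fun p hp => (idF ξ hξ p hp).2.symm) (fun p hp => mem_XO hp) hlg fun p hp x hx => ?_)
  exact Prod.ext (P_theta (by norm_num) hp hx) (P_theta le_rfl hp hx)

end Vale.Agent.P273.H722
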